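import Vale.Agent.P284Y.X.X23
import Vale.Agent.P284Y.Spec
import Vale.Agent.P284Y.D.Spec
import Vale.Agent.P284Y.A.TubeOps

/-!
# P284Y: from the blocks A, Y, D to the input of the block X
-/

open scoped ContDiff Topology ComplexOrder ComplexConjugate ENNReal Matrix
open Filter Set Function Metric MeasureTheory

noncomputable section

namespace Vale.Agent.P284Y.X

open Vale.Agent.P272.K Vale.Agent.P284.H608.K Vale.Agent.P284Z Vale.Agent.P284Z.J Vale.Agent.P284Z.L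

variable {n p : ℕ} {Γ E : Type} [Group Γ] [TopologicalSpace E] [MulAction Γ E] {C : Cov n Γ E}

/-- the cores of the tubes -/
def tfOf {F : A.Fol C} (T : ℕ → A.Tube F) (hc : A.Covers T) : TF C F.p where
  ι := ℕ
  T i := core (T i)
  sh i := (T i).sh
  sub i := ⟨by simpa only [core, mem_ball_iff_norm] using (T i).isOpen_pre isOpen_ball,
    fun γ a z hz h => (T i).hol γ a z hz h.1, fun γ a z hz h => (T i).surj γ a z hz h.1⟩
  cpt i y hy := by
    have h0 := hy.2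
    have h1 : ∀ t, ‖t - (T i).sh y‖ ≤ ((T i).r / 8 - ‖(T i).sh y - (T i).t₁‖) / 2 →
        ‖t - (T i).t₁‖ < (T i).r / 8 := fun t ht => by
      linarith [norm_sub_le_norm_sub_add_norm_sub t ((T i).sh y) (T i).t₁]
    refine ⟨_, half_pos (sub_pos.2 h0), ?_⟩
    convert (T i).cpt_of (isCompact_closedBall ((T i).sh y) _) fun t ht => mem_ball_iff_norm.2
      ((h1 t (mem_closedBall_iff_norm.1 ht)).trans (by linarith [(T i).r_pos])) using 1
    exact Set.ext fun x => ⟨fun h => ⟨h.1.1, mem_closedBall_iff_norm.2 h.2⟩, fun h =>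
      ⟨⟨h.1, h1 _ (mem_closedBall_iff_norm.1 h.2)⟩, mem_closedBall_iff_norm.1 h.2⟩⟩
  conn i t := by
    by_cases h : ‖t - (T i).t₁‖ < (T i).r / 8
    · convert ((T i).conn t (mem_ball_iff_norm.2
        (h.trans (by linarith [(T i).r_pos])))).isPreconnected using 1
      exact Set.ext fun y => ⟨fun g => ⟨g.1.1, g.2⟩, fun g => ⟨⟨g.1, g.2.symm ▸ h⟩, g.2⟩⟩
    · convert isPreconnected_empty
      exact eq_empty_of_forall_notMem fun y g => h (g.2 ▸ g.1.2)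
  conull γ a := (hc γ a).mono fun _ h hz => h (B24 hz)
  fol a := by
    obtain ⟨h, h1, h2, h3⟩ := F.thin a
    refine ⟨h, h1, h2, fun z hz h0 => ?_⟩
    obtain ⟨U, s, u1, u2, u3, u4, u5⟩ := F.loc _ (h3 z hz h0)
    refine ⟨fun w => s (C.pt 1 a w), u4 1 a z (B24 hz) u2, (u5 1 a z (B24 hz) u2).1, ?_⟩
    filter_upwards [(C.isOpen_B 4 a).mem_nhds (B24 hz),
      (C.continuousAt_pt (B24 hz) 1).eventually (u1.mem_nhds u2)] with w w1 w2 γ i hi v hv
    exact ((T i).ker γ a w w1 hi.1 (C.pt_eq γ a w ▸ F.inv γ _ (u3 w2)) v).2 (((u5 1 a w w1 w2).2 v).1 hv)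

theorem gr_dg_pos {P : Matrix (Fin p) (Fin n) ℂ} (h : 0 < gr P 1) {d : Fin n → ℝ}
    (hd : ∀ i, d i ∈ Ioc (0 : ℝ) 1) : 0 < gr P (dg d) := by
  have h1 : (P * Pᴴ).det ≠ 0 := fun h0 => by simp [gr, h0] at h
  have h2 : (dg d).det ≠ 0 := by simp [dg, Finset.prod_eq_zero_iff, fun i => (hd i).1.ne']
  have h3 : Injective (P * dg d).vecMul := fun x y hxy => by
    have h4 : (x - y) ᵥ* (P * dg d) = 0 := by rw [Matrix.sub_vecMul]; exact sub_eq_zero.2 hxy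
    rw [← Matrix.vecMul_vecMul] at h4
    refine sub_eq_zero.1 (Matrix.eq_zero_of_vecMul_eq_zero h1 ?_)
    rw [← Matrix.vecMul_vecMul, Matrix.eq_zero_of_vecMul_eq_zero h2 h4, Matrix.zero_vecMul]
  exact (Complex.pos_iff.1 (Matrix.PosDef.mul_conjTranspose_self _ h3).det_pos).1

theorem nsq_dg (d : Fin n → ℝ) (u : Cm n) : nsq (dg d *ᵥ u) = ∑ i, d i ^ 2 * ‖u i‖ ^ 2 := by
  simp [nsq, dg, Matrix.mulVec_diagonal, mul_pow]

theorem dg_le {d : Fin n → ℝ} (hd : ∀ i, d i ∈ Ioc (0 : ℝ) 1) (u : Cm n) :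
    nsq (dg d *ᵥ u) ≤ nsq u := by
  rw [nsq_dg]
  exact Finset.sum_le_sum fun i _ =>
    mul_le_of_le_one_left (by positivity) (pow_le_one₀ (hd i).1.le (hd i).2)

theorem fr_dg {d : Fin n → ℝ} (hd : ∀ i, d i ∈ Ioc (0 : ℝ) 1) {R : ℕ → ℝ}
    (hR : Tendsto R atTop atTop) : ∀ᶠ j in atTop, Fr (R j) (dg d) := by
  have h1 : Tendsto (fun j => Real.exp (-(2 * R j))) atTop (𝓝 0) :=
    Real.tendsto_exp_neg_atTop_nhds_zero.comp (hR.const_mul_atTop two_pos)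
  filter_upwards [eventually_all.2 fun i => h1.eventually_le_const (pow_pos (hd i).1 2),
    hR.eventually_ge_atTop 0] with j h2 h3 u
  refine ⟨?_, (dg_le hd u).trans (le_mul_of_one_le_left (Finset.sum_nonneg fun _ _ => sq_nonneg _)
    (Real.one_le_exp (by linarith)))⟩
  rw [nsq_dg, nsq, Finset.mul_sum]
  exact Finset.sum_le_sum fun i _ => mul_le_mul_of_nonneg_right (h2 i) (by positivity)

theorem sml_pin {A B : ℕ → Cm n → ℝ} {g g' : Cm n → ℝ} {ε L : ℕ → ℝ} {M : ℝ} {z : Cm n}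
    (hg : ContinuousAt g z) (hg' : ContinuousAt g' z) (g0 : 0 < g z) (g0' : 0 < g' z)
    (hε : Tendsto ε atTop (𝓝 0)) (hL : Tendsto L atTop atTop)
    (h : ∀ᶠ q : ℕ × Cm n in atTop ×ˢ 𝓝 z, (B q.1 q.2 ≤ M ∧
      |(A q.1 q.2 - Real.log (g' q.2)) - (B q.1 q.2 - Real.log (g q.2))| ≤ ε q.1) ∨
      (A q.1 q.2 ≤ M - L q.1 ∧ B q.1 q.2 ≤ M - L q.1)) :
    Sml (fun j w => Real.exp (A j w) * g w - Real.exp (B j w) * g' w) z := by
  have t1 : Tendsto (fun q : ℕ × Cm n => g q.2) (atTop ×ˢ 𝓝 z) (𝓝 (g z)) := hg.tendsto.comp tendsto_snd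
  have t2 : Tendsto (fun q : ℕ × Cm n => g' q.2) (atTop ×ˢ 𝓝 z) (𝓝 (g' z)) :=
    hg'.tendsto.comp tendsto_snd
  have t3 : Tendsto (fun q : ℕ × Cm n => ε q.1) (atTop ×ˢ 𝓝 z) (𝓝 0) := hε.comp tendsto_fst
  have t4 : Tendsto (fun q : ℕ × Cm n => Real.exp (M - L q.1)) (atTop ×ˢ 𝓝 z) (𝓝 0) :=
    Real.tendsto_exp_atBot.comp ((tendsto_atBot_add_const_left _ M
      (tendsto_neg_atTop_atBot.comp hL)).comp tendsto_fst)
  have t5 := ((t2.const_mul (Real.exp M)).mul (t3.abs.const_mul 2)).add (t4.mul (t1.add t2))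
  simp only [abs_zero, mul_zero, zero_mul, add_zero] at t5
  refine squeeze_zero_norm' ?_ t5
  filter_upwards [h, t1.eventually_const_lt g0, t2.eventually_const_lt g0',
    t3.eventually_le_const one_pos] with q h1 h2 h3 h4
  rw [Real.norm_eq_abs]
  rcases h1 with ⟨h1, h5⟩ | ⟨h1, h5⟩
  · have e : Real.exp (A q.1 q.2) * g q.2 - Real.exp (B q.1 q.2) * g' q.2 =
        Real.exp (B q.1 q.2) * g' q.2 * (Real.exp ((A q.1 q.2 - Real.log (g' q.2)) -
          (B q.1 q.2 - Real.log (g q.2))) - 1) := by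
      simp only [Real.exp_sub, Real.exp_log h2, Real.exp_log h3]
      field_simp
    rw [e, abs_mul, abs_of_pos (by positivity)]
    refine le_add_of_le_of_nonneg (mul_le_mul (mul_le_mul_of_nonneg_right (Real.exp_le_exp.2 h1) h3.le)
      ((Real.abs_exp_sub_one_le (h5.trans h4)).trans ?_) (abs_nonneg _) (by positivity)) (by positivity)
    linarith [le_abs_self (ε q.1)]
  · have e1 := mul_le_mul_of_nonneg_right (Real.exp_le_exp.2 h1) h2.le
    have e2 := mul_le_mul_of_nonneg_right (Real.exp_le_exp.2 h5) h3.le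
    refine le_add_of_nonneg_of_le (by positivity) ((abs_sub _ _).trans ?_)
    rw [abs_of_pos (by positivity), abs_of_pos (by positivity), mul_add]
    exact add_le_add e1 e2

theorem B25 {a : C.I} {z : Cm n} (hz : z ∈ C.B 2 a) : z ∈ C.B (5 / 2) a := C.B_mono (by norm_num) a hz

theorem nsq_cont : Continuous (nsq : Cm n → ℝ) := by
  unfold nsq
  fun_prop

theorem xi_of {F : A.Fol C} {T : ℕ → A.Tube F} (hc : A.Covers T)
    (Y : YD C (fun i => core (T i)) fun i => (T i).sh) (D : DK Y.toYF T) :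
    Nonempty (XI (tfOf T hc) D.i₀ D.a₀ D.z₀) := by
  obtain ⟨K₀, hK₀⟩ := D.base
  have hφ := D.mono.tendsto_atTop
  have he := Y.e_tend.comp hφ
  have hL := Y.L_tend.comp hφ
  have hx := B25 (B12 D.mem)
  have ev : ∀ (i : ℕ) (d : Fin n → ℝ), (∀ i, d i ∈ Ioc (0 : ℝ) 1) → ∀ᶠ j in atTop, i ≤ D.φ j ∧
      D.l ≤ D.φ j ∧ Fr (Y.R (D.φ j)) (dg d) ∧ Fr (Y.R (D.φ j)) 1 ∧ Y.e (D.φ j) ≤ 1 ∧
      Y.Good (D.φ j) D.a₀ D.z₀ := fun i d hd => by
    filter_upwards [hφ.eventually_ge_atTop i, hφ.eventually_ge_atTop D.l,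
      fr_dg hd (Y.R_tend.comp hφ), fr_dg one_mem (Y.R_tend.comp hφ), he.eventually_le_const one_pos,
      hK₀, hL.eventually_ge_atTop K₀] with j h1 h2 h3 h4 h5 h6 h7
    exact ⟨h1, h2, h3, dg_one (n := n) ▸ h4, h5, hx, (neg_le_neg h7).trans h6⟩
  have hv : ∀ j γ b ξ, D.l ≤ j → Fr (Y.R j) ξ → ∀ y ∈ C.B (5 / 2) b,
      Y.v D.l j D.a₀ D.z₀ γ b y ξ ≤ Y.f j b y ξ + Y.e j := fun j γ b ξ h1 h2 y hy => by
    linarith [Y.v_le _ j h1 _ γ b ξ h2 _ hx y hy,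
      mul_nonpos_of_nonneg_of_nonpos (Nat.cast_nonneg (Y.N D.l)) (Y.f_le j _ _ hx)]
  have hch : ∀ j g a b w, C.Ov g a b w → w ∈ C.B 2 a → C.tr g a b w ∈ C.B 2 b →
      Y.f j b (C.tr g a b w) 1 ≤ Y.f j a w 1 + |Y.K| := fun j g a b w h1 h2 h3 => by
    linarith [Y.f_ch j g⁻¹ b a _ (B25 h3) w (B25 h2) (by rw [C.pt_tr h1, inv_mul_cancel]),
      le_abs_self Y.K]
  have hb : ∀ {j a w}, w ∈ C.B 2 a → ¬ Y.Good j a w → Y.f j a w 1 < -Y.L j := fun h1 h2 =>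
    not_le.1 fun h => h2 ⟨B25 h1, h⟩
  have evc : ∀ {i : ℕ} {γ g a b z}, C.Ov g a b z → z ∈ C.B 2 a → C.tr g a b z ∈ C.B 2 b →
      C.pt (γ * g) a z ∈ (tfOf T hc).T i → ∀ᶠ w in 𝓝 z, C.Ov g a b w ∧ C.tr g a b w ∈ C.B 2 b ∧
        w ∈ C.B 2 a ∧ C.pt (γ * g) a w ∈ (tfOf T hc).T i := fun h1 h2 h3 h4 =>
    (C.ev_Ov h1).and (((C.an_tr h1).continuousAt.eventually ((C.isOpen_B 2 _).mem_nhds h3)).and
      (tube_ev h2 h4))
  refine ⟨{
    Q := fun j a d z => Real.exp (Y.f (D.φ j) a z (dg d))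
    W := fun j γ a d z => Real.exp (Y.v D.l (D.φ j) D.a₀ D.z₀ γ a z (dg d))
    e := fun j _ z => Y.e (D.φ j) * nsq z
    e_sml := fun a z _ => by
      simpa [Sml] using (he.comp tendsto_fst).mul ((nsq_cont.tendsto z).comp tendsto_snd)
    Q_psh := fun a d hd => (ev 0 d hd).mono fun j h => ?_
    W_psh := fun γ a d hd => (ev 0 d hd).mono fun j h => ?_
    K := Real.exp 1
    Q_le := fun a d hd => (ev 0 d hd).mono fun j h z hz => Real.exp_le_exp.2 (by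
      linarith [Y.f_mono _ a _ h.2.2.1 (dg_le hd) z (B25 hz), Y.f_le (D.φ j) a z (B25 hz), h.2.2.2.2.1])
    W_le := fun γ a d hd => (ev 0 d hd).mono fun j h z hz => by
      rw [← Real.exp_add]
      exact Real.exp_le_exp.2 (by linarith [hv _ γ a _ h.2.1 h.2.2.1 z (B25 hz), h.2.2.2.2.1])
    Q_pin := fun i γ a d hd z hz hT => ?_
    W_pin := fun i γ a d hd z hz hT => ?_
    Q_ch := fun i γ g a b z ho hz hz' hT => ?_
    W_ch := fun i γ g a b z ho hz hz' hT => ?_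
    base := ⟨_, Real.exp_pos (-K₀), hK₀.mono fun j h => Real.exp_le_exp.2 (dg_one (n := n) ▸ h)⟩
    c := Y.c D.l, c_pos := Y.c_pos _
    pole := ⟨Real.exp (Y.Kl D.l), _, (C.isOpen_B 2 _).mem_nhds (B12 D.mem), fun η hη => ?_⟩
    m := (Y.N D.l + 1) * D.m
    m_nonneg := mul_nonneg (by positivity) D.m_nonneg
    shell := ?_ }⟩
  · simp only [← Real.exp_add]
    exact ((Y.f_psh _ a _ h.2.2.1).lpsh_exp (LB.of_cont ((Y.f_cont _ a _ h.2.2.1).add
      (continuous_const.mul nsq_cont).continuousOn))).mono fun _ => B25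
  · refine ((((Y.v_psh _ _ h.2.1 D.a₀ γ a _ h.2.2.1).lpsh_exp (LB.of_cont
      ((Y.v_cont _ _ h.2.1 D.a₀ γ a _ h.2.2.1).add (continuous_const.mul ((nsq_cont.comp
        continuous_fst).add (nsq_cont.comp continuous_snd))).continuousOn))).right hx).const_mul
      (Real.exp_pos (-(Y.e (D.φ j) * nsq D.z₀))).le |>.mono fun _ => B25).congr fun z _ => ?_
    simp only [← Real.exp_add]
    congr 1
    ring
  · simp only [dg_one]
    refine sml_pin (M := 1) (gr_contAt₁ (B24 hz) hT) (gr_contAt (B24 hz) hT d) (gr_pos' (B24 hz) hT)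
      (gr_dg_pos (gr_pos' (B24 hz) hT) hd) he hL (((ev i d hd).prod_mk (tube_ev hz hT)).mono ?_)
    rintro ⟨j, w⟩ ⟨⟨h1, h2, h3, h4, h5, h6⟩, w1, w2⟩
    have h7 := Y.f_mono _ a _ h3 (dg_le hd) w (B25 w1)
    by_cases hg : Y.Good (D.φ j) a w
    · exact Or.inl ⟨(Y.f_le _ a w (B25 w1)).trans zero_le_one,
        Y.pin_f i _ h1 γ a w _ γ a w 1 hg (B25 w1) h3 h4 rfl w2⟩
    · have h8 := hb w1 hg
      exact Or.inr ⟨by simp only [comp]; linarith, by simp only [comp]; linarith⟩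
  · simp only [dg_one]
    refine sml_pin (M := 2) (gr_contAt₁ (B24 hz) hT) (gr_contAt (B24 hz) hT d) (gr_pos' (B24 hz) hT)
      (gr_dg_pos (gr_pos' (B24 hz) hT) hd) he hL (((ev i d hd).prod_mk (tube_ev hz hT)).mono ?_)
    rintro ⟨j, w⟩ ⟨⟨h1, h2, h3, h4, h5, h6⟩, w1, w2⟩
    have h7 := Y.f_mono _ a _ h3 (dg_le hd) w (B25 w1)
    have h9 := hv _ γ a _ h2 h3 w (B25 w1)
    have h10 := hv _ γ a _ h2 h4 w (B25 w1)
    by_cases hg : Y.Good (D.φ j) a w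
    · have := Y.pin_v D.l i _ h2 h1 1 _ _ γ a w _ γ a w 1 h6 hg (B25 w1) h3 h4 rfl
        (by rw [one_mul]; exact w2)
      simp only [one_mul] at this
      exact Or.inl ⟨by linarith [Y.f_le (D.φ j) a w (B25 w1)], this⟩
    · have h8 := hb w1 hg
      exact Or.inr ⟨by simp only [comp]; linarith, by simp only [comp]; linarith⟩
  · simp only [dg_one]
    have hT' : C.pt γ b (C.tr g a b z) ∈ (tfOf T hc).T i := by rw [C.pt_tr ho]; exact hT
    refine sml_pin (M := |Y.K|) ((gr_contAt₁ (B24 hz') hT').comp (C.an_tr ho).continuousAt)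
      (gr_contAt₁ (B24 hz) hT) (gr_pos' (B24 hz') hT') (gr_pos' (B24 hz) hT) he hL
      (((ev i 1 one_mem).prod_mk (evc ho hz hz' hT)).mono ?_)
    rintro ⟨j, w⟩ ⟨⟨h1, h2, -, h4, h5, h6⟩, w0, w3, w1, w2⟩
    have h7 := hch (D.φ j) g a b w w0 w1 w3
    have h0 := abs_nonneg Y.K
    by_cases hg : Y.Good (D.φ j) a w
    · exact Or.inl ⟨(Y.f_le _ b _ (B25 w3)).trans h0,
        Y.pin_f i _ h1 (γ * g) a w 1 γ b _ 1 hg (B25 w3) h4 h4 (C.pt_tr w0 γ).symm w2⟩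
    · have h8 := hb w1 hg
      exact Or.inr ⟨by simp only [comp]; linarith, by simp only [comp]; linarith⟩
  · simp only [dg_one]
    have hT' : C.pt γ b (C.tr g a b z) ∈ (tfOf T hc).T i := by rw [C.pt_tr ho]; exact hT
    refine sml_pin (M := |Y.K| + 1) ((gr_contAt₁ (B24 hz') hT').comp (C.an_tr ho).continuousAt)
      (gr_contAt₁ (B24 hz) hT) (gr_pos' (B24 hz') hT') (gr_pos' (B24 hz) hT) he hL
      (((ev i 1 one_mem).prod_mk (evc ho hz hz' hT)).mono ?_)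
    rintro ⟨j, w⟩ ⟨⟨h1, h2, -, h4, h5, h6⟩, w0, w3, w1, w2⟩
    have h7 := hch (D.φ j) g a b w w0 w1 w3
    have h0 := abs_nonneg Y.K
    have h9 := hv _ (γ * g) a _ h2 h4 w (B25 w1)
    have h10 := hv _ γ b _ h2 h4 _ (B25 w3)
    by_cases hg : Y.Good (D.φ j) a w
    · have := Y.pin_v D.l i _ h2 h1 1 _ _ (γ * g) a w 1 γ b _ 1 h6 hg (B25 w3) h4 h4
        (C.pt_tr w0 γ).symm (by rw [one_mul]; exact w2)
      simp only [one_mul] at this
      exact Or.inl ⟨by linarith [Y.f_le (D.φ j) b _ (B25 w3)], this⟩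
    · have h8 := hb w1 hg
      exact Or.inr ⟨by simp only [comp]; linarith, by simp only [comp]; linarith⟩
  · have h1 : Tendsto (fun j => Real.exp (Y.Kl D.l) * Real.exp (-(Y.c D.l * Y.L (D.φ j)))) atTop
        (𝓝 (_ * 0)) := (Real.tendsto_exp_neg_atTop_nhds_zero.comp
          (hL.const_mul_atTop (Y.c_pos D.l))).const_mul _
    filter_upwards [h1.eventually_le_const (by simpa using hη), hφ.eventually_ge_atTop D.l]
      with j h2 h3 z hz
    obtain ⟨r, r0, r1, r2⟩ : ∃ r > (0 : ℝ), ‖D.z₀ - z‖ ≤ r ∧ Real.exp (Y.c D.l * Real.log r) ≤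
        ‖z - D.z₀‖ ^ Y.c D.l + Real.exp (-(Y.c D.l * Y.L (D.φ j))) := by
      rcases (norm_nonneg (z - D.z₀)).eq_or_lt with h | h
      · exact ⟨_, Real.exp_pos (-Y.L (D.φ j)), by rw [norm_sub_rev, ← h]; positivity, by
          rw [Real.log_exp, mul_neg]; exact le_add_of_nonneg_left (by positivity)⟩
      · exact ⟨_, h, (norm_sub_rev _ _).le, by
          rw [Real.rpow_def_of_pos h, mul_comm]; exact le_add_of_nonneg_right (by positivity)⟩
    rw [dg_one]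
    refine (Real.exp_le_exp.2 (Y.pole _ _ h3 _ _ (B12 D.mem) z hz r r0 r1)).trans ?_
    rw [add_comm, Real.exp_add, Real.exp_monotone.map_max]
    refine (mul_le_mul_of_nonneg_left (max_le r2 (le_add_of_nonneg_left (by positivity)))
      (by positivity)).trans ?_
    linarith
  · obtain ⟨V, hV, hV1, hs⟩ := D.shell
    refine ⟨V, hV, fun S h1 h2 h3 => ?_⟩
    obtain ⟨K, hK⟩ := hs S h1 h2 h3
    obtain ⟨κ, hκ⟩ : ∃ κ : ℝ, κ = -((Y.N D.l + 1) * K) - Y.N D.l * K₀ - 1 := ⟨_, rfl⟩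
    refine ⟨_, Real.exp_pos κ, fun η hη => ?_⟩
    filter_upwards [hK (κ - Real.log η), hK₀, ev 0 1 one_mem] with j g1 g2 ⟨_, g3, _, g4, g5, _⟩ z hz
    have hz' := B25 (B12 (hV1 (h1 hz)))
    have g6 := Y.f_le (D.φ j) _ z hz'
    have hN : (0 : ℝ) ≤ Y.N D.l := Nat.cast_nonneg _
    rw [dg_one, ← Real.exp_mul, ← Real.exp_add]
    by_cases h : -(κ - Real.log η) ≤ Y.f (D.φ j) D.a₀ z 1
    · refine le_add_of_le_of_nonneg (Real.exp_le_exp.2 ?_) hη.le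
      have g7 := g1 z hz h
      simp only [YF.ut, YF.u, inv_one, mul_one] at g7
      rw [le_div_iff₀ (by positivity)] at g7
      nlinarith [Y.v_le _ _ g3 D.a₀ 1 D.a₀ 1 g4 z hz' _ hx, mul_le_mul_of_nonneg_left g2 hN]
    · refine le_add_of_nonneg_of_le (Real.exp_pos _).le ((Real.le_log_iff_exp_le hη).1 ?_)
      nlinarith [mul_nonpos_of_nonpos_of_nonneg g6
        (mul_nonneg (add_nonneg hN zero_le_one) D.m_nonneg)]

theorem stDX_of (hD : StDK) (hX : StX46) : StDX := by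
  intro n Γ E _ _ _ _ _ _ _ C F T hc hs Y h1 h2 h3
  obtain ⟨D⟩ := hD n Γ E C h1 h2 h3 F T hc hs _ _ _ Y
  obtain ⟨I⟩ := xi_of hc Y D
  obtain ⟨L⟩ := stX23 n _ Γ E C (tfOf T hc) D.i₀ _ _ D.mem F.p_pos D.tube I
  exact hX n _ Γ E C F.p_pos L

end Vale.Agent.P284Y.X
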