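import Vale.Agent.P284Y.X.Rel

/-!
# P284Y, row X3: plurisubharmonic functions are constant on the compact fibres
-/

open scoped ContDiff Topology ComplexOrder ComplexConjugate ENNReal Matrix
open Filter Set Function Metric MeasureTheory

noncomputable section

namespace Vale.Agent.P284Y.X

open Vale.Agent.P272.K Vale.Agent.P284.H608.K Vale.Agent.P284Z Vale.Agent.P284Z.J Vale.Agent.P284Z.L

variable {n p : ℕ}

theorem loc_max {b : Cm n → Cm p} {z : Cm n} {u : Cm n → ℝ} {N : Set (Cm n)}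
    (hb : AnalyticAt ℂ b z) (hs : Surjective (fderiv ℂ b z)) (hN : N ∈ 𝓝 z) (hu : Psh u N)
    (hl : LB u N) (hm : ∀ᶠ w in 𝓝 z, b w = b z → u w ≤ u z) :
    ∀ᶠ w in 𝓝 z, b w = b z → u w = u z := by
  obtain ⟨s, φ, χ, h1, h2, h3, h4, h5, h6, -, h8⟩ := P284.H625.exists_straight hb hs
  let π : Cm n →L[ℂ] Cm n := ContinuousLinearMap.id ℂ _ - s.comp (fderiv ℂ b z)
  have hπ : ∀ x, π x = x - s (fderiv ℂ b z x) := fun _ => rfl
  have hg : AnalyticAt ℂ (fun x => χ (π x)) 0 := h4.comp_of_eq (π.analyticAt 0) (map_zero π)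
  have ht : Tendsto (fun x => χ (π x)) (𝓝 0) (𝓝 z) := by
    have := hg.continuousAt.tendsto
    rwa [map_zero, h5] at this
  have hπt : Tendsto π (𝓝 0) (𝓝 0) := by
    have := π.continuous.tendsto 0
    rwa [map_zero] at this
  obtain ⟨ε, hε, hO⟩ := Metric.eventually_nhds_iff_ball.1 (hg.eventually_analyticAt.and
    ((ht.eventually (interior_mem_nhds.2 hN)).and ((ht.eventually hm).and (hπt.eventually h8))))
  have key := ((hu.mono interior_subset).comp (hl.mono interior_subset) isOpen_interior isOpen_ball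
    (fun x hx => (hO x hx).1.differentiableAt.differentiableWithinAt)
    fun x hx => (hO x hx).2.1).eq_of_max ((hl.mono interior_subset).comp
      (fun x hx => (hO x hx).1.continuousAt.continuousWithinAt) fun x hx => (hO x hx).2.1)
    isOpen_ball (convex_ball _ _).isPreconnected (mem_ball_self hε) fun x hx => by
      rw [map_zero, h5]
      refine (hO x hx).2.2.1 ?_
      rw [(hO x hx).2.2.2, hπ, map_sub, h1, sub_self, add_zero]
  have hφ : Tendsto φ (𝓝 z) (𝓝 0) := h3 ▸ h2.continuousAt.tendsto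
  filter_upwards [h6, hφ.eventually h8, hφ.eventually (ball_mem_nhds 0 hε)] with w w1 w2 w3 w4
  have h := key _ w3
  rw [w1, w4, left_eq_add] at w2
  rwa [map_zero, h5, hπ, w2, map_zero, sub_zero, w1] at h

variable {Γ E : Type} [Group Γ] [TopologicalSpace E] [MulAction Γ E] {C : Cov n Γ E}

theorem fib_const {s : E → Cm p} {T : Set E} {u : E → ℝ} {t : Cm p} (hs : Sub C s T)
    (hu : ∀ γ a, ∀ z ∈ C.B 1 a, C.pt γ a z ∈ T → ∃ N ∈ 𝓝 z,
      Psh (fun w => u (C.pt γ a w)) N ∧ LB (fun w => u (C.pt γ a w)) N)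
    (hK : IsCompact {y ∈ T | s y = t}) (hc : IsPreconnected {y ∈ T | s y = t}) :
    ∀ y ∈ {y ∈ T | s y = t}, ∀ y' ∈ {y ∈ T | s y = t}, u y = u y' := by
  have h1 : ∀ y ∈ T, UpperSemicontinuousAt u y := fun y hy c hc => by
    obtain ⟨γ, a, z, hz, rfl⟩ := C.exists_pt y
    obtain ⟨N, hN, h, -⟩ := hu γ a z hz hy
    have := h.1 z (mem_of_mem_nhds hN) c hc
    rw [nhdsWithin_eq_nhds.2 hN] at this
    exact (C.ev_pt (C.B14 hz) γ).2 this
  intro y hy
  obtain ⟨x, hx, hm⟩ := UpperSemicontinuousOn.exists_isMaxOn ⟨y, hy⟩ hK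
    fun y hy => (h1 y hy.1).upperSemicontinuousWithinAt _
  have h2 : ∀ y ∈ {y ∈ T | s y = t}, u y = u x →
      ∀ᶠ y' in 𝓝 y, y' ∈ {y ∈ T | s y = t} → u y' = u x := fun y hy e => by
    obtain ⟨γ, a, z, hz, rfl⟩ := C.exists_pt y
    obtain ⟨N, hN, h, h'⟩ := hu γ a z hz hy.1
    refine (C.ev_pt (C.B14 hz) γ).2 ((loc_max (hs.hol γ a z (C.B14 hz) hy.1)
      (hs.surj γ a z (C.B14 hz) hy.1) hN h h' ?_).mono fun w hw h3 => ?_)
    · filter_upwards [(C.continuousAt_pt (C.B14 hz) γ).eventually (hs.opn.mem_nhds hy.1)] with w w1 w2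
      exact (hm ⟨w1, w2.trans hy.2⟩).trans_eq e.symm
    · exact (hw (h3.2.trans hy.2.symm)).trans e
  have key : ∀ y ∈ {y ∈ T | s y = t}, u y = u x := fun y hy => by_contra fun hn => by
    have h3 : ∀ y ∈ {y ∈ T | s y = t}, u y ≠ u x → ∀ᶠ y' in 𝓝 y, u y' < u x := fun y hy h =>
      h1 y hy.1 _ (lt_of_le_of_ne (hm hy) h)
    obtain ⟨w, w1, w2, w3⟩ := hc {y | ∀ᶠ y' in 𝓝 y, y' ∈ {y ∈ T | s y = t} → u y' = u x}
      {y | ∀ᶠ y' in 𝓝 y, u y' < u x} isOpen_setOfPred_eventually_nhds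
      isOpen_setOfPred_eventually_nhds
      (fun y hy => (em (u y = u x)).imp (h2 y hy) (h3 y hy)) ⟨x, hx, h2 x hx rfl⟩ ⟨y, hy, h3 y hy hn⟩
    exact (Filter.Eventually.self_of_nhds w3).ne (Filter.Eventually.self_of_nhds w2 w1)
  exact fun y' hy' => (key y hy).trans (key y' hy').symm

theorem hol_const {s : E → Cm p} {T : Set E} {f : E → ℂ} {t : Cm p} (hs : Sub C s T)
    (hf : C.HolOn f T) (hK : IsCompact {y ∈ T | s y = t}) (hc : IsPreconnected {y ∈ T | s y = t}) :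
    ∀ y ∈ {y ∈ T | s y = t}, ∀ y' ∈ {y ∈ T | s y = t}, f y = f y' := by
  have key : ∀ c : ℂ, ∀ y ∈ {y ∈ T | s y = t}, ∀ y' ∈ {y ∈ T | s y = t},
      (c * f y).re = (c * f y').re := fun c =>
    fib_const (u := fun y => (c * f y).re) hs (fun γ a z hz hT => by
      obtain ⟨N, h1, h2, h3⟩ := _root_.eventually_nhds_iff.1
        (analyticAt_const.mul (hf γ a z (C.B14 hz) hT) (f := fun _ => c)).eventually_analyticAt
      have hd : DifferentiableOn ℂ (fun w => c * f (C.pt γ a w)) N := fun w hw =>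
        (h1 w hw).differentiableAt.differentiableWithinAt
      exact ⟨N, h2.mem_nhds h3, psh_re h2 hd, lb_re hd⟩) hK hc
  intro y hy y' hy'
  exact Complex.ext (by simpa using key 1 y hy y' hy') (by simpa using key Complex.I y hy y' hy')

variable {F : TF C p} {X : Γ → C.I → (Fin p → Fin n) → Cm n → ℝ} {Y : F.ι → E → ℝ} {K : ℝ}
  {i : F.ι} {γ : Γ} {a : C.I} {z : Cm n}

theorem Fam.lpsh (f : Fam F X Y K) (hz : z ∈ C.B 2 a) (hT : C.pt γ a z ∈ F.T i) :
    ∃ N ∈ 𝓝 z, IsOpen N ∧ LPsh (fun w => Y i (C.pt γ a w)) N := by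
  obtain ⟨I, hI⟩ := exists_eb ((F.sub i).surj γ a z (B24 hz) hT)
  obtain ⟨N, h1, h2, h3⟩ := _root_.eventually_nhds_iff.1 ((tube_ev hz hT).and
    ((an_ds hz hT (eb I)).continuousAt.eventually_ne hI))
  refine ⟨N, h2.mem_nhds h3, h2, (((f.psh γ a I).mono fun w hw => (h1 w hw).1.1).mul
    (lpsh_norm_rpow h2 (fun w hw => (an_ds (h1 w hw).1.1 (h1 w hw).1.2
      (eb I)).differentiableAt.differentiableWithinAt) (fun w hw => (h1 w hw).2) (-2))).congr
    fun w hw => ?_⟩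
  have h0 := norm_pos_iff.2 (h1 w hw).2
  simp only [f.eq i γ a I w (h1 w hw).1.1 (h1 w hw).1.2]
  rw [Real.rpow_neg h0.le, Real.rpow_two]
  field_simp

theorem Fam.fib (f : Fam F X Y K) {T : Set E} (hT : T ⊆ F.T i) (hs : Sub C (F.sh i) T) {t : Cm p}
    (hK : IsCompact {y ∈ T | F.sh i y = t}) (hc : IsPreconnected {y ∈ T | F.sh i y = t}) :
    ∀ y ∈ {y ∈ T | F.sh i y = t}, ∀ y' ∈ {y ∈ T | F.sh i y = t}, Y i y = Y i y' :=
  fib_const hs (fun _ _ _ hz h => (f.lpsh (B12 hz) (hT h)).imp fun _ hN =>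
    ⟨hN.1, hN.2.2.psh, hN.2.2.lb⟩) hK hc

end Vale.Agent.P284Y.X
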