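import Vale.Agent.P284Y.X.Lim
import Vale.Agent.P284Z.L.S8b.Loc
import Vale.Agent.P284Z.Z.Loc

/-!
# P284Y, row X3: the frames
-/

open scoped ContDiff Topology ComplexOrder ComplexConjugate ENNReal Matrix
open Filter Set Function Metric MeasureTheory

noncomputable section

namespace Vale.Agent.P284Y.X

open Vale.Agent.P272.K Vale.Agent.P284.H608.K Vale.Agent.P284Z Vale.Agent.P284Z.J Vale.Agent.P284Z.L

variable {n p : ℕ} {Γ E : Type} [Group Γ] [TopologicalSpace E] [MulAction Γ E] {C : Cov n Γ E}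
  {F : TF C p} {i i' : F.ι} {γ γ' : Γ} {a : C.I} {z : Cm n}

theorem an_ds (hz : z ∈ C.B 2 a) (hT : C.pt γ a z ∈ F.T i) (v : Fin p → Cm n) :
    AnalyticAt ℂ (fun w => ds C (F.sh i) γ a w v) z :=
  an_dd ((F.sub i).hol γ a z (B24 hz) hT) v

/-- the tubes are tangent to each other -/
theorem ds_prop (hz : z ∈ C.B 2 a) (hT : C.pt γ a z ∈ F.T i) (hT' : C.pt γ' a z ∈ F.T i')
    (v v' : Fin p → Cm n) : ds C (F.sh i) γ a z v * ds C (F.sh i') γ' a z v' =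
      ds C (F.sh i) γ a z v' * ds C (F.sh i') γ' a z v := by
  obtain ⟨h, h1, h2, h3⟩ := F.fol a
  refine S8b.eq_of_dense
    (f := fun w => ds C (F.sh i) γ a w v * ds C (F.sh i') γ' a w v')
    (g := fun w => ds C (F.sh i) γ a w v' * ds C (F.sh i') γ' a w v)
    ((an_ds hz hT v).mul (an_ds hz hT' v')).continuousAt
    ((an_ds hz hT v').mul (an_ds hz hT' v)).continuousAt
    (dense_ne_zero (C.preconn_B 2 a) h1 h2 hz) ?_
  filter_upwards [tube_ev hz hT, tube_ev hz hT'] with w w1 w2 hw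
  obtain ⟨s, -, s2, s3⟩ := h3 w w1.1 hw
  obtain ⟨l, hl⟩ := dd_of_ker s2 (s3.self_of_nhds γ i w1.2)
  obtain ⟨l', hl'⟩ := dd_of_ker s2 (s3.self_of_nhds γ' i' w2.2)
  simp only [ds, hl, hl']
  ring

/-- extension of a function which is dominated by the inverse of the weight -/
theorem ext_dom {U : Set (Cm n)} (hU : IsOpen U) {P : Cm n → ℝ} {K : ℝ} {h f : Cm n → ℂ}
    (hP : ∀ z ∈ U, Z.LI volume P 1 z) (hh : AnalyticOnNhd ℂ h U) (hne : ∀ z ∈ U, ∃ᶠ w in 𝓝 z, h w ≠ 0)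
    (hf : ∀ z ∈ U, h z ≠ 0 → AnalyticAt ℂ f z)
    (hle : ∀ᵐ z, z ∈ U → h z ≠ 0 → 0 < P z ∧ ‖f z‖ ^ 2 * P z ≤ K) :
    ∃ G : Cm n → ℂ, AnalyticOnNhd ℂ G U ∧ ∀ z ∈ U, h z ≠ 0 → G z = f z := by
  obtain ⟨G, G1, G2⟩ := P271.H408.ext_L2 hU (f := f) hh.differentiableOn hne
    (fun z hz => (hf z hz.1 hz.2).differentiableAt.differentiableWithinAt) fun z hz => by
      obtain ⟨N, hN, hI⟩ := hP z hz
      obtain ⟨r, hr, h1⟩ := Metric.mem_nhds_iff.1 (inter_mem hN (hU.mem_nhds hz))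
      have hm : MeasurableSet (ball z r ∩ {w | h w ≠ 0}) :=
        ((hh.continuousOn.mono fun w hw => (h1 hw).2).isOpen_inter_preimage isOpen_ball
          isOpen_ne).measurableSet
      refine ⟨r, hr, ne_top_of_le_ne_top (ENNReal.mul_ne_top (ENNReal.ofReal_ne_top (r := K))
        hI.ne) ?_⟩
      rw [← lintegral_const_mul' _ _ ENNReal.ofReal_ne_top]
      refine le_trans (lintegral_mono_ae ?_) (lintegral_mono_set fun w hw => (h1 hw.1).1)
      filter_upwards [ae_restrict_mem hm, ae_restrict_of_ae hle] with w w1 w2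
      obtain ⟨w3, w4⟩ := w2 (h1 w1.1).2 w1.2
      rw [ENNReal.rpow_neg_one, ← ENNReal.ofReal_inv_of_pos w3,
        ← ENNReal.ofReal_mul ((by positivity : 0 ≤ ‖f w‖ ^ 2 * P w).trans w4), ← ofReal_norm,
        ← ENNReal.ofReal_pow (norm_nonneg _)]
      exact ENNReal.ofReal_le_ofReal ((le_mul_inv_iff₀ w3).2 w4)
  exact ⟨G, P268.analyticOnNhd_of_differentiableOn hU G1, G2⟩

theorem li_pos {P : Cm n → ℝ} {U : Set (Cm n)} (hP : LPsh P U) (hU : IsOpen U)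
    (hc : IsPreconnected U) (hz : z ∈ U) (h : Z.LI volume P 1 z) : ∀ᵐ w, w ∈ U → 0 < P w := by
  obtain ⟨N, hN, hI⟩ := h
  obtain ⟨r, hr, h1⟩ := Metric.mem_nhds_iff.1 (inter_mem hN (hU.mem_nhds hz))
  have h2 := ae_lt_top' ((Z.usc_aemeas hU hP.usc measurableSet_ball (fun w hw => (h1 hw).2)
    volume).ennreal_ofReal.pow_const (-1 : ℝ))
    (ne_top_of_le_ne_top hI.ne (lintegral_mono_set fun w hw => (h1 hw).1))
  obtain ⟨w, hw, h3⟩ := exists_of_ae (ball_mem_nhds z hr)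
    ((ae_restrict_iff' measurableSet_ball).1 h2)
  refine hP.ae_pos hU hc (h1 hw).2 (not_le.1 fun h4 => ?_)
  rw [ENNReal.ofReal_of_nonpos h4, ENNReal.rpow_neg_one, ENNReal.inv_zero] at h3
  exact lt_irrefl _ h3

variable {Q : C.I → (Fin p → Fin n) → Cm n → ℝ} {H : F.ι → E → ℝ} {K : ℝ}

/-- the domain of the frame -/
def UU (C : Cov n Γ E) (Q : C.I → (Fin p → Fin n) → Cm n → ℝ) (a : C.I) (I : Fin p → Fin n) :
    Set (Cm n) := {z ∈ C.B 2 a | Z.LI volume (Q a I) 1 z}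

theorem UU_opn (a : C.I) (I : Fin p → Fin n) : IsOpen (UU C Q a I) :=
  isOpen_iff_mem_nhds.2 fun _ hz => ((C.isOpen_B 2 a).eventually_mem hz.1).and (Z.LF.ev hz.2)

theorem exists_coef (fQ : Fam F (fun _ => Q) H K) (a : C.I) (I J : Fin p → Fin n) :
    ∃ r : Cm n → ℂ, AnalyticOnNhd ℂ r (UU C Q a I) ∧ ∀ i γ, ∀ z ∈ UU C Q a I, C.pt γ a z ∈ F.T i →
      ds C (F.sh i) γ a z (eb J) = ds C (F.sh i) γ a z (eb I) * r z := by
  classical
  rcases (UU C Q a I).eq_empty_or_nonempty with he | ⟨z₁, hz₁⟩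
  · exact ⟨0, analyticOnNhd_const, fun i γ z hz => by simp [he] at hz⟩
  have hpos := li_pos (fQ.psh 1 a I) (C.isOpen_B 2 a) (C.preconn_B 2 a) hz₁.1 hz₁.2
  obtain ⟨h, h1, h2, h3⟩ := F.fol a
  have hU := UU_opn (Q := Q) a I
  set U := UU C Q a I
  have hUB : U ⊆ C.B 2 a := fun z hz => hz.1
  let S : Cm n → Prop := fun z => ∃ u : Γ × F.ι, C.pt u.1 a z ∈ F.T u.2 ∧
    ds C (F.sh u.2) u.1 a z (eb I) ≠ 0
  let g : Cm n → ℂ := fun z => if hz : S z then ds C (F.sh hz.choose.2) hz.choose.1 a z (eb J) /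
    ds C (F.sh hz.choose.2) hz.choose.1 a z (eb I) else 0
  have hg : ∀ z ∈ C.B 2 a, S z → ∀ i γ, C.pt γ a z ∈ F.T i →
      ds C (F.sh i) γ a z (eb J) = ds C (F.sh i) γ a z (eb I) * g z := fun z hz hS i γ hT => by
    simp only [g, dif_pos hS]
    rw [mul_div_assoc', eq_div_iff hS.choose_spec.2]
    exact ds_prop hz hT hS.choose_spec.1 _ _
  have hS : ∀ᵐ z, z ∈ C.B 2 a → S z ∧ 0 < Q a I z ∧ ‖g z‖ ^ 2 * Q a I z ≤ K := by
    filter_upwards [hpos, F.conull 1 a] with z z1 z2 hz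
    obtain ⟨i, hi⟩ := z2 hz
    have e1 := fQ.eq i 1 a I z hz hi
    have e2 : ds C (F.sh i) 1 a z (eb I) ≠ 0 := fun h0 => by
      have := z1 hz
      rw [e1, h0] at this
      simp at this
    have e3 : S z := ⟨(1, i), hi, e2⟩
    refine ⟨e3, z1 hz, le_of_eq_of_le ?_ (fQ.le 1 a J z hz)⟩
    rw [fQ.eq i 1 a J z hz hi, hg z hz e3 i 1 hi, e1, norm_mul]
    ring
  have hne := ae_ne_zero volume (C.isOpen_B 2 a) (C.preconn_B 2 a) h1 h2
  have hU' : IsOpen (U ∩ {z | h z ≠ 0}) :=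
    (h1.continuousOn.mono hUB).isOpen_inter_preimage hU isOpen_ne
  have hd : ∀ z ∈ C.B 2 a, ∃ᶠ w in 𝓝 z, S w ∧ h w ≠ 0 := fun z hz =>
    freq_of_ae ((C.isOpen_B 2 a).mem_nhds hz) (by
      filter_upwards [hS, hne] with w w1 w2 hw using ⟨(w1 hw).1, w2 hw⟩)
  obtain ⟨τ, τ1, τ2⟩ := S8b.glue hU' (S := S) (g := g)
    (fun z hz => (hd z (hUB hz.1)).mono fun _ hw => hw.1) fun z₀ hz₀ => by
      obtain ⟨s, s1, s2, s3⟩ := h3 z₀ (hUB hz₀.1) hz₀.2
      obtain ⟨I', hI'⟩ := exists_eb s2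
      obtain ⟨N, hN, hNo, hzN⟩ := _root_.eventually_nhds_iff.1 ((hU.eventually_mem hz₀.1).and
        (s1.eventually_analyticAt.and (s3.and
          ((an_dd s1 (eb I')).continuousAt.eventually_ne hI'))))
      have e1 : ∀ w ∈ N, S w → dd s w (eb I) ≠ 0 ∧ dd s w (eb J) / dd s w (eb I) = g w := by
        rintro w hw hSw
        obtain ⟨u, u1, u2⟩ := id hSw
        obtain ⟨l, hl⟩ := dd_of_ker (surj_of_dd (hN w hw).2.2.2) ((hN w hw).2.2.1 _ _ u1)
        have e2 := hg w (hUB (hN w hw).1) hSw _ _ u1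
        simp only [ds, hl] at e2 u2
        have e3 := right_ne_zero_of_mul u2
        refine ⟨e3, ?_⟩
        rw [div_eq_iff e3]
        exact mul_left_cancel₀ (left_ne_zero_of_mul u2) (e2.trans (by ring))
      obtain ⟨G, G1, G2⟩ := ext_dom hNo (P := Q a I) (K := K) (h := fun w => dd s w (eb I))
        (f := fun w => dd s w (eb J) / dd s w (eb I)) (fun w hw => (hN w hw).1.2)
        (fun w hw => an_dd (hN w hw).2.1 _)
        (fun w hw => ((hd w (hUB (hN w hw).1)).and_eventually (hNo.mem_nhds hw)).mono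
          fun x hx => (e1 x hx.2 hx.1.1).1)
        (fun w hw h0 => (an_dd (hN w hw).2.1 _).div (an_dd (hN w hw).2.1 _) h0) (by
          filter_upwards [hS] with w w1 hw _
          obtain ⟨w2, w3, w4⟩ := w1 (hUB (hN w hw).1)
          rw [(e1 w hw w2).2]
          exact ⟨w3, w4⟩)
      refine ⟨G, G1 z₀ hzN, ?_⟩
      filter_upwards [hNo.mem_nhds hzN] with w hw hSw
      rw [G2 w hw (e1 w hw hSw).1, (e1 w hw hSw).2]
  obtain ⟨r, r1, r2⟩ := ext_dom hU (P := Q a I) (K := K) (h := h) (f := τ) (fun w hw => hw.2)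
    (h1.mono hUB) (fun w hw => (hd w (hUB hw)).mono fun _ hx => hx.2)
    (fun w hw h0 => τ1 w ⟨hw, h0⟩) (by
      filter_upwards [hS] with w w1 hw h0
      obtain ⟨w2, w3, w4⟩ := w1 (hUB hw)
      rw [τ2 w ⟨hw, h0⟩ w2]
      exact ⟨w3, w4⟩)
  refine ⟨r, r1, fun i γ z hz hT => S8b.eq_of_dense
    (f := fun w => ds C (F.sh i) γ a w (eb J)) (g := fun w => ds C (F.sh i) γ a w (eb I) * r w)
    (an_ds (hUB hz) hT _).continuousAt ((an_ds (hUB hz) hT _).mul (r1 z hz)).continuousAt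
    (hd z (hUB hz)) ?_⟩
  filter_upwards [tube_ev (hUB hz) hT, hU.mem_nhds hz] with w w1 w2 w3
  rw [r2 w w2 w3.2, τ2 w ⟨w2, w3.2⟩ w3.1]
  exact hg w w1.1 w3.1 i γ w1.2

/-- the frames -/
structure Frm (F : TF C p) (U : C.I → (Fin p → Fin n) → Set (Cm n))
    (θ : C.I → (Fin p → Fin n) → Cm n → Af n p) : Prop where
  opn : ∀ a I, IsOpen (U a I)
  sub : ∀ a I, U a I ⊆ C.B 2 a
  an : ∀ a I, AnalyticOnNhd ℂ (θ a I) (U a I)
  eq : ∀ i γ a I, ∀ z ∈ U a I, C.pt γ a z ∈ F.T i → ∀ v,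
    ds C (F.sh i) γ a z v = ds C (F.sh i) γ a z (eb I) * θ a I z v

theorem exists_frm (fQ : Fam F (fun _ => Q) H K) : ∃ θ, Frm F (UU C Q) θ := by
  choose r r1 r2 using exists_coef fQ
  obtain ⟨L, hL⟩ := exists_af n p
  refine ⟨fun a I z => L fun σ => r a I σ z, UU_opn, fun _ _ _ hz => hz.1,
    fun a I z hz => (L.analyticAt _).comp (analyticAt_pi_iff.2 fun σ => r1 a I σ z hz),
    fun i γ a I z hz hT v => ?_⟩
  have h1 : (fun σ => dF (fun w => F.sh i (C.pt γ a w)) z (eb σ)) =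
      ds C (F.sh i) γ a z (eb I) • fun σ => r a I σ z := by
    funext σ
    rw [dF_apply]
    exact r2 a I σ i γ z hz hT
  have h2 := hL (dF (fun w => F.sh i (C.pt γ a w)) z)
  rw [h1, map_smul] at h2
  rw [ds, ← dF_apply, ← h2]
  rfl

end Vale.Agent.P284Y.X
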