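import Vale.Agent.P284Y.X.Tool

/-!
# P284Y, row X2: the limits of the weights
-/

open scoped ContDiff Topology ComplexOrder ComplexConjugate ENNReal Matrix
open Filter Set Function Metric MeasureTheory

noncomputable section

namespace Vale.Agent.P284Y.X

open Vale.Agent.P272.K Vale.Agent.P284.H608.K Vale.Agent.P284Z Vale.Agent.P284Z.J Vale.Agent.P284Z.L

variable {n p : ℕ} {Γ E : Type} [Group Γ] [TopologicalSpace E] [MulAction Γ E] {C : Cov n Γ E}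

/-- a family of weights in the charts, which are multiples of `|ds|²` on the tubes -/
structure Fam (F : TF C p) (X : Γ → C.I → (Fin p → Fin n) → Cm n → ℝ) (Y : F.ι → E → ℝ) (K : ℝ) :
    Prop where
  psh : ∀ γ a I, LPsh (X γ a I) (C.B 2 a)
  le : ∀ γ a I, ∀ z ∈ C.B 2 a, X γ a I z ≤ K
  eq : ∀ i γ a I, ∀ z ∈ C.B 2 a, C.pt γ a z ∈ F.T i →
    X γ a I z = ‖ds C (F.sh i) γ a z (eb I)‖ ^ 2 * Y i (C.pt γ a z)

/-- the limit weights -/
structure XM (F : TF C p) (i₀ : F.ι) (a₀ : C.I) (z₀ : Cm n) where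
  Q : C.I → (Fin p → Fin n) → Cm n → ℝ
  W : Γ → C.I → (Fin p → Fin n) → Cm n → ℝ
  H : F.ι → E → ℝ
  V : F.ι → E → ℝ
  K : ℝ
  one_le : 1 ≤ K
  fQ : Fam F (fun _ => Q) H K
  fW : Fam F W V (K * K)
  V_le : ∀ i, ∀ y ∈ F.T i, V i y ≤ K * H i y
  base : 0 < H i₀ (C.pt 1 a₀ z₀)
  c : ℝ
  c_pos : 0 < c
  pole : ∃ M : ℝ, ∀ᶠ z in 𝓝 z₀, V i₀ (C.pt 1 a₀ z) ≤ M * ‖z - z₀‖ ^ c
  m : ℝ
  m_nonneg : 0 ≤ m
  shell : ∃ N ∈ 𝓝 z₀, ∀ S ⊆ N, IsCompact S →
    (∀ z ∈ S, F.sh i₀ (C.pt 1 a₀ z) ≠ F.sh i₀ (C.pt 1 a₀ z₀)) →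
    ∃ M : ℝ, ∀ z, S ∈ 𝓝 z → H i₀ (C.pt 1 a₀ z) ^ (1 + m) ≤ M * V i₀ (C.pt 1 a₀ z)

/-- the frames which are used -/
def dS (S : Finset (Fin n)) (k : ℕ) : Fin n → ℝ := fun i => if i ∈ S then 1 else 1 / (k + 1)

theorem dS_mem (S : Finset (Fin n)) (k : ℕ) (i : Fin n) : dS S k i ∈ Ioc (0 : ℝ) 1 := by
  unfold dS
  split_ifs
  · exact ⟨one_pos, le_rfl⟩
  · exact ⟨by positivity, (div_le_one (by positivity)).2 (by linarith [Nat.cast_nonneg (α := ℝ) k])⟩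

theorem dS_univ : dS (Finset.univ : Finset (Fin n)) 0 = 1 := by
  funext i
  simp [dS]

theorem dS_tend (I : Fin p → Fin n) : Tendsto (dS (Finset.univ.image I)) atTop
    (𝓝 fun i => if i ∈ range I then 1 else 0) := by
  refine tendsto_pi_nhds.2 fun i => ?_
  by_cases h : i ∈ range I
  · have h' : i ∈ Finset.univ.image I := by simpa using h
    simp only [dS, h, h', if_true, tendsto_const_nhds]
  · have h' : i ∉ Finset.univ.image I := by simpa using h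
    simp only [dS, h, h', if_false]
    exact tendsto_one_div_add_atTop_nhds_zero_nat

theorem B24 {a : C.I} {z : Cm n} (hz : z ∈ C.B 2 a) : z ∈ C.B 4 a := C.B_mono (by norm_num) a hz

theorem B12 {a : C.I} {z : Cm n} (hz : z ∈ C.B 1 a) : z ∈ C.B 2 a := C.B_mono (by norm_num) a hz

variable {F : TF C p}

theorem tube_ev {i : F.ι} {γ : Γ} {a : C.I} {z : Cm n} (hz : z ∈ C.B 2 a)
    (hT : C.pt γ a z ∈ F.T i) : ∀ᶠ w in 𝓝 z, w ∈ C.B 2 a ∧ C.pt γ a w ∈ F.T i :=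
  ((C.isOpen_B 2 a).eventually_mem hz).and
    ((C.continuousAt_pt (B24 hz) γ).eventually ((F.sub i).opn.mem_nhds hT))

theorem js_cont {i : F.ι} {γ : Γ} {a : C.I} {z : Cm n} (hz : z ∈ C.B 4 a)
    (hT : C.pt γ a z ∈ F.T i) : ContinuousAt (js C (F.sh i) γ a) z :=
  jm_cont ((F.sub i).hol γ a z hz hT)

theorem gr_contAt {i : F.ι} {γ : Γ} {a : C.I} {z : Cm n} (hz : z ∈ C.B 4 a)
    (hT : C.pt γ a z ∈ F.T i) (d : Fin n → ℝ) :
    ContinuousAt (fun w => gr (js C (F.sh i) γ a w) (dg d)) z :=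
  gr_cont.continuousAt.comp₂ (js_cont hz hT) continuousAt_const

theorem gr_contAt₁ {i : F.ι} {γ : Γ} {a : C.I} {z : Cm n} (hz : z ∈ C.B 4 a)
    (hT : C.pt γ a z ∈ F.T i) : ContinuousAt (fun w => gr (js C (F.sh i) γ a w) 1) z := by
  simpa only [dg_one] using gr_contAt hz hT 1

theorem gr_pos' {i : F.ι} {γ : Γ} {a : C.I} {z : Cm n} (hz : z ∈ C.B 4 a)
    (hT : C.pt γ a z ∈ F.T i) : 0 < gr (js C (F.sh i) γ a z) 1 :=
  gr_pos ((F.sub i).surj γ a z hz hT)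

theorem gr_tend {α : Type} {l : Filter α} {P : α → Matrix (Fin p) (Fin n) ℂ} {d : α → Fin n → ℝ}
    {P₀ : Matrix (Fin p) (Fin n) ℂ} {d₀ : Fin n → ℝ} (hP : Tendsto P l (𝓝 P₀))
    (hd : Tendsto d l (𝓝 d₀)) : Tendsto (fun x => gr (P x) (dg (d x))) l (𝓝 (gr P₀ (dg d₀))) :=
  Tendsto.comp (f := fun x => (P x, d x))
    (g := fun q : Matrix (Fin p) (Fin n) ℂ × (Fin n → ℝ) => gr q.1 (dg q.2))
    (gr_cont.tendsto (P₀, d₀)) (hP.prodMk_nhds hd)

theorem Sml.sub {g : ℕ → Cm n → ℝ} {z : Cm n} (h : Sml g z) {φ : ℕ → ℕ}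
    (hφ : Tendsto φ atTop atTop) : Sml (fun j => g (φ j)) z :=
  h.comp (hφ.prodMap tendsto_id)

/-- an identity between limits -/
theorem rat_eq {g g' : ℕ → Cm n → ℝ} {c c' K : ℝ} {z : Cm n} {u u' : Cm n → ℝ} (h : RAt g c z)
    (h' : RAt g' c' z) (hK : ∀ᶠ q : ℕ × Cm n in atTop ×ˢ 𝓝 z, |g q.1 q.2| ≤ K)
    (hK' : ∀ᶠ q : ℕ × Cm n in atTop ×ˢ 𝓝 z, |g' q.1 q.2| ≤ K) (hu : ContinuousAt u z)
    (hu' : ContinuousAt u' z) (h0 : 0 ≤ u z) (h0' : 0 ≤ u' z)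
    (hs : Sml (fun j w => g j w * u w - g' j w * u' w) z) : c * u z = c' * u' z :=
  (rat_mul (w := fun _ => u) h h0 (hu.tendsto.comp tendsto_snd) hK).unique
    (rat_sml (rat_mul (w := fun _ => u') h' h0' (hu'.tendsto.comp tendsto_snd) hK') hs)

/-- the hypotheses on a family at level `j` -/
structure Lev (F : TF C p) (X : ℕ → Γ → C.I → (Fin n → ℝ) → Cm n → ℝ) (e : ℕ → C.I → Cm n → ℝ)
    (K : ℝ) : Prop where
  e_sml : ∀ a, ∀ z ∈ C.B 2 a, Sml (fun j => e j a) z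
  psh : ∀ γ a d, (∀ i, d i ∈ Ioc (0 : ℝ) 1) → ∀ᶠ j in atTop,
    LPsh (fun z => X j γ a d z * Real.exp (e j a z)) (C.B 2 a)
  le : ∀ γ a d, (∀ i, d i ∈ Ioc (0 : ℝ) 1) → ∀ᶠ j in atTop, ∀ z ∈ C.B 2 a, X j γ a d z ≤ K
  pin : ∀ i γ a d, (∀ i, d i ∈ Ioc (0 : ℝ) 1) → ∀ z ∈ C.B 2 a, C.pt γ a z ∈ F.T i →
    Sml (fun j w => X j γ a d w * gr (js C (F.sh i) γ a w) 1 -
      X j γ a 1 w * gr (js C (F.sh i) γ a w) (dg d)) z
  ch : ∀ i γ g a b z, C.Ov g a b z → z ∈ C.B 2 a → C.tr g a b z ∈ C.B 2 b →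
    C.pt (γ * g) a z ∈ F.T i →
    Sml (fun j w => X j (γ * g) a 1 w * gr (js C (F.sh i) γ b (C.tr g a b w)) 1 -
      X j γ b 1 (C.tr g a b w) * gr (js C (F.sh i) (γ * g) a w) 1) z

variable {X : ℕ → Γ → C.I → (Fin n → ℝ) → Cm n → ℝ} {e : ℕ → C.I → Cm n → ℝ} {K : ℝ}

theorem Lev.sub (h : Lev F X e K) {φ : ℕ → ℕ} (hφ : Tendsto φ atTop atTop) :
    Lev F (fun j => X (φ j)) (fun j => e (φ j)) K where
  e_sml a z hz := (h.e_sml a z hz).sub hφ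
  psh γ a d hd := hφ.eventually (h.psh γ a d hd)
  le γ a d hd := hφ.eventually (h.le γ a d hd)
  pin i γ a d hd z hz hT := (h.pin i γ a d hd z hz hT).sub hφ
  ch i γ g a b z h1 h2 h3 h4 := (h.ch i γ g a b z h1 h2 h3 h4).sub hφ

theorem Lev.bd (h : Lev F X e K) (γ : Γ) (a : C.I) {d : Fin n → ℝ} (hd : ∀ i, d i ∈ Ioc (0 : ℝ) 1) :
    ∀ᶠ j in atTop, ∀ z ∈ C.B 2 a, 0 ≤ X j γ a d z ∧ X j γ a d z ≤ K := by
  filter_upwards [h.psh γ a d hd, h.le γ a d hd] with j h1 h2 z hz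
  exact ⟨nonneg_of_mul_nonneg_left (h1.1 z hz) (Real.exp_pos _), h2 z hz⟩

theorem Lev.abs (h : Lev F X e K) (γ : Γ) {a : C.I} {d : Fin n → ℝ} (hd : ∀ i, d i ∈ Ioc (0 : ℝ) 1)
    {z : Cm n} (hz : z ∈ C.B 2 a) :
    ∀ᶠ q : ℕ × Cm n in atTop ×ˢ 𝓝 z, |X q.1 γ a d q.2| ≤ K :=
  (ev_prod ((C.isOpen_B 2 a).mem_nhds hz) (h.bd γ a hd)).mono fun _ hq => by
    rw [abs_of_nonneg hq.1]; exact hq.2

theorem one_mem : ∀ i, (1 : Fin n → ℝ) i ∈ Ioc (0 : ℝ) 1 := fun _ => ⟨one_pos, le_rfl⟩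

/-- the quotient of the limit for the frame `1` by the Gram determinant -/
def quo (F : TF C p) (G : Γ → C.I → Cm n → ℝ) (i : F.ι) (y : E) : ℝ :=
  G (C.ch₀ y).1 (C.ch₀ y).2.1 (C.ch₀ y).2.2 /
    gr (js C (F.sh i) (C.ch₀ y).1 (C.ch₀ y).2.1 (C.ch₀ y).2.2) 1

theorem ch₀_spec (y : E) : (C.ch₀ y).2.2 ∈ C.B 1 (C.ch₀ y).2.1 ∧
    y = C.pt (C.ch₀ y).1 (C.ch₀ y).2.1 (C.ch₀ y).2.2 := by
  have h := (C.cover y).choose_spec.choose_spec.choose_spec
  exact ⟨by unfold Cov.B; rw [one_mul]; exact h.1, h.2⟩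

theorem Lev.quo_eq (h : Lev F X e K) {G : Γ → C.I → Cm n → ℝ}
    (hG : ∀ γ a, RLimOn (fun j => X j γ a 1) (G γ a) (C.B 2 a)) {i : F.ι} {γ : Γ} {a : C.I}
    {z : Cm n} (hz : z ∈ C.B 2 a) (hT : C.pt γ a z ∈ F.T i) :
    G γ a z = quo F G i (C.pt γ a z) * gr (js C (F.sh i) γ a z) 1 := by
  obtain ⟨h1, h2⟩ := ch₀_spec (C := C) (C.pt γ a z)
  unfold quo
  generalize C.ch₀ (C.pt γ a z) = u at h1 h2
  obtain ⟨γ', b, z'⟩ := u
  simp only at h1 h2 ⊢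
  have hz' := C.B14 h1
  obtain ⟨ho, ht⟩ := C.Ov_of_eq (B24 hz) hz' h2
  have hg : γ' * (γ'⁻¹ * γ) = γ := mul_inv_cancel_left _ _
  have hT' : C.pt γ' b z' ∈ F.T i := h2 ▸ hT
  have h3 := h.ch i γ' _ a b z ho hz (by rw [ht]; exact B12 h1) (by rw [hg]; exact hT)
  rw [hg] at h3
  have hc := (C.an_tr ho).continuousAt
  have h4 := rat_eq (hG γ a z hz) (RAt.map (C.map_tr ho) (by rw [ht]; exact hG γ' b z' (B12 h1)))
    (h.abs γ one_mem hz)
    ((tendsto_id.prodMap hc.tendsto).eventually (by rw [ht]; exact h.abs γ' one_mem (B12 h1)))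
    (ContinuousAt.comp (g := fun w => gr (js C (F.sh i) γ' b w) 1)
      (by rw [ht]; exact gr_contAt₁ hz' hT') hc)
    (gr_contAt₁ (B24 hz) hT) (gr_nonneg _ _) (gr_nonneg _ _) h3
  simp only [Function.comp, ht] at h4
  have h5 := gr_pos' hz' hT'
  field_simp
  linarith

theorem Lev.lpsh (h : Lev F X e K) {γ : Γ} {a : C.I} {d : Fin n → ℝ} (hd : ∀ i, d i ∈ Ioc (0 : ℝ) 1)
    {G : Cm n → ℝ} (hG : RLimOn (fun j => X j γ a d) G (C.B 2 a)) :
    LPsh G (C.B 2 a) ∧ ∀ z ∈ C.B 2 a, 0 ≤ G z ∧ G z ≤ K := by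
  have h1 : LPsh G (C.B 2 a) := by
    refine RLimOn.lpsh (fun z hz => ?_) (C.isOpen_B 2 a) (h.psh γ a d hd)
    have h2 := (Real.continuous_exp.tendsto 0).comp (h.e_sml a z hz)
    rw [Real.exp_zero] at h2
    simpa only [mul_one] using rat_mul (w := fun j w => Real.exp (e j a w)) (hG z hz) zero_le_one h2
      (h.abs γ hd hz)
  exact ⟨h1, fun z hz => ⟨h1.1 z hz, (hG z hz).le_of_nbhd ((C.isOpen_B 2 a).mem_nhds hz)
    (h.le γ a d hd)⟩⟩

/-- the second limit -/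
theorem Lev.fam (h : Lev F X e K) (hK : 0 ≤ K) {G : Γ → C.I → Finset (Fin n) → ℕ → Cm n → ℝ}
    (hG : ∀ γ a S k, RLimOn (fun j => X j γ a (dS S k)) (G γ a S k) (C.B 2 a)) {ψ : ℕ → ℕ}
    (hψ : Tendsto ψ atTop atTop) {G' : Γ → C.I → Finset (Fin n) → Cm n → ℝ}
    (hG' : ∀ γ a S, RLimOn (fun k => G γ a S (ψ k)) (G' γ a S) (C.B 2 a)) :
    Fam F (fun γ a I z => if Injective I then G' γ a (Finset.univ.image I) z else 0)
      (quo F fun γ a => G γ a Finset.univ 0) K := by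
  have hG1 : ∀ γ a, RLimOn (fun j => X j γ a 1) (G γ a Finset.univ 0) (C.B 2 a) := fun γ a => by
    simpa only [dS_univ] using hG γ a Finset.univ 0
  have hL := fun γ a S k => h.lpsh (dS_mem S k) (hG γ a S k)
  refine ⟨fun γ a I => ?_, fun γ a I z hz => ?_, fun i γ a I z hz hT => ?_⟩
  · by_cases hI : Injective I
    · simp only [hI, if_true]
      exact (hG' γ a _).lpsh (C.isOpen_B 2 a) (.of_forall fun k => (hL γ a _ _).1)
    · simp only [hI, if_false]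
      exact lpsh_const le_rfl _
  · split_ifs
    · exact (hG' γ a _ z hz).le_of_nbhd ((C.isOpen_B 2 a).mem_nhds hz)
        (.of_forall fun k w hw => ((hL γ a _ _).2 w hw).2)
    · exact hK
  · by_cases hI : Injective I
    swap
    · simp only [hI, if_false, ds, dd_noninj _ _ hI]
      simp
    simp only [hI, if_true]
    set S := Finset.univ.image I
    have e1 : ∀ k, ∀ w ∈ C.B 2 a, C.pt γ a w ∈ F.T i → G γ a S k w =
        G γ a Finset.univ 0 w * (gr (js C (F.sh i) γ a w) (dg (dS S k)) /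
          gr (js C (F.sh i) γ a w) 1) := fun k w hw hw' => by
      have h1 := rat_eq (hG γ a S k w hw) (hG1 γ a w hw) (h.abs γ (dS_mem S k) hw)
        (h.abs γ one_mem hw) (gr_contAt₁ (B24 hw) hw') (gr_contAt (B24 hw) hw' _) (gr_nonneg _ _)
        (gr_nonneg _ _) (h.pin i γ a _ (dS_mem S k) w hw hw')
      have h2 := gr_pos' (B24 hw) hw'
      field_simp
      exact h1
    have h2 := gr_pos' (B24 hz) hT
    have e2 : Tendsto (fun q : ℕ × Cm n => gr (js C (F.sh i) γ a q.2) (dg (dS S (ψ q.1))) /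
        gr (js C (F.sh i) γ a q.2) 1) (atTop ×ˢ 𝓝 z)
        (𝓝 (‖ds C (F.sh i) γ a z (eb I)‖ ^ 2 / gr (js C (F.sh i) γ a z) 1)) := by
      refine Tendsto.div ?_ ((gr_contAt₁ (B24 hz) hT).tendsto.comp tendsto_snd) h2.ne'
      have e4 := gr_tend ((js_cont (B24 hz) hT).tendsto.comp tendsto_snd)
        (((dS_tend I).comp hψ).comp (tendsto_fst (f := atTop) (g := 𝓝 z)))
      rw [show js C (F.sh i) γ a z = jm (fun w => F.sh i (C.pt γ a w)) z from rfl,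
        gr_ind _ _ hI] at e4
      exact e4
    have e5 : ∀ᶠ q : ℕ × Cm n in atTop ×ˢ 𝓝 z, |G γ a Finset.univ 0 q.2| ≤ K := by
      filter_upwards [tendsto_snd.eventually ((C.isOpen_B 2 a).eventually_mem hz)] with q hq
      rw [abs_of_nonneg ((hL γ a Finset.univ 0).2 _ hq).1]
      exact ((hL γ a Finset.univ 0).2 _ hq).2
    have e3 := rat_mul (w := fun k w => gr (js C (F.sh i) γ a w) (dg (dS S (ψ k))) /
      gr (js C (F.sh i) γ a w) 1)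
      (rlimOn_const (C.isOpen_B 2 a) (hL γ a Finset.univ 0).1.usc z hz) (by positivity) e2 e5
    rw [(hG' γ a S z hz).unique (rat_congr e3 ((tendsto_snd.eventually (tube_ev hz hT)).mono
      fun q hq => e1 _ _ hq.1 hq.2)), h.quo_eq hG1 hz hT]
    field_simp

variable {i₀ : F.ι} {a₀ : C.I} {z₀ : Cm n}

theorem XI.levQ (D : XI F i₀ a₀ z₀) : Lev F (fun j _ => D.Q j) D.e (max D.K 1) where
  e_sml := D.e_sml
  psh _ := D.Q_psh
  le _ a d hd := (D.Q_le a d hd).mono fun _ h z hz => (h z hz).trans (le_max_left _ _)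
  pin := D.Q_pin
  ch := D.Q_ch

theorem XI.W_le' (D : XI F i₀ a₀ z₀) (γ : Γ) (a : C.I) {d : Fin n → ℝ}
    (hd : ∀ i, d i ∈ Ioc (0 : ℝ) 1) :
    ∀ᶠ j in atTop, ∀ z ∈ C.B 2 a, D.W j γ a d z ≤ max D.K 1 * D.Q j a d z := by
  filter_upwards [D.W_le γ a d hd, D.levQ.bd γ a hd] with j h1 h2 z hz
  exact (h1 z hz).trans (mul_le_mul_of_nonneg_right (le_max_left _ _) (h2 z hz).1)

theorem XI.levW (D : XI F i₀ a₀ z₀) : Lev F D.W D.e (max D.K 1 * max D.K 1) where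
  e_sml := D.e_sml
  psh := D.W_psh
  le γ a d hd := by
    filter_upwards [D.W_le' γ a hd, D.levQ.bd γ a hd] with j h1 h2 z hz
    exact (h1 z hz).trans (mul_le_mul_of_nonneg_left (h2 z hz).2 (by positivity))
  pin := D.W_pin
  ch := D.W_ch

theorem exists_xm [Countable Γ] (D : XI F i₀ a₀ z₀) (hz₀ : z₀ ∈ C.B 2 a₀)
    (hT₀ : C.pt 1 a₀ z₀ ∈ F.T i₀) : Nonempty (XM F i₀ a₀ z₀) := by
  set K := max D.K 1 with hK
  have hK1 : 1 ≤ K := le_max_right _ _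
  have hKK : K ≤ K * K := le_mul_of_one_le_left (by linarith) hK1
  obtain ⟨φ, hφ, H⟩ := exists_rlimOn (ι := Option Γ × C.I × Finset (Fin n) × ℕ)
    (fun u j => u.1.elim (D.Q j) (D.W j) u.2.1 (dS u.2.2.1 u.2.2.2)) (fun u => C.B 2 u.2.1)
    (fun u => C.isOpen_B 2 _) (M := K * K) (by positivity) (by
      rintro ⟨_ | γ, a, S, k⟩
      · exact (D.levQ.bd 1 a (dS_mem S k)).mono fun j h z hz => ⟨(h z hz).1, (h z hz).2.trans hKK⟩
      · exact D.levW.bd γ a (dS_mem S k))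
  choose G hG using H
  have hφ' := hφ.tendsto_atTop
  have LQ := D.levQ.sub hφ'
  have LW := D.levW.sub hφ'
  have hGQ : ∀ (γ : Γ) a S k, RLimOn (fun j => D.Q (φ j) a (dS S k)) (G (none, a, S, k)) (C.B 2 a) :=
    fun _ a S k => hG (none, a, S, k)
  have hGW : ∀ (γ : Γ) a S k, RLimOn (fun j => D.W (φ j) γ a (dS S k)) (G (some γ, a, S, k))
    (C.B 2 a) := fun γ a S k => hG (some γ, a, S, k)
  obtain ⟨ψ, hψ, H'⟩ := exists_rlimOn (ι := Option Γ × C.I × Finset (Fin n))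
    (fun u k => G (u.1, u.2.1, u.2.2, k)) (fun u => C.B 2 u.2.1)
    (fun u => C.isOpen_B 2 _) (M := K * K) (by positivity) (by
      rintro ⟨_ | γ, a, S⟩
      · exact .of_forall fun k z hz => ⟨((LQ.lpsh (γ := 1) (dS_mem S k) (hGQ 1 a S k)).2 z hz).1,
          ((LQ.lpsh (γ := 1) (dS_mem S k) (hGQ 1 a S k)).2 z hz).2.trans hKK⟩
      · exact .of_forall fun k => (LW.lpsh (dS_mem S k) (hGW γ a S k)).2)
  choose G' hG' using H'
  have fQ := LQ.fam (by linarith) (G := fun _ a S k => G (none, a, S, k)) hGQ hψ.tendsto_atTop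
    (G' := fun _ a S => G' (none, a, S)) fun _ a S => hG' (none, a, S)
  have fW := LW.fam (by positivity) (G := fun γ a S k => G (some γ, a, S, k)) hGW hψ.tendsto_atTop
    (G' := fun γ a S => G' (some γ, a, S)) fun γ a S => hG' (some γ, a, S)
  have hQ1 : ∀ (γ : Γ) a, RLimOn (fun j => D.Q (φ j) a 1) (G (none, a, Finset.univ, 0)) (C.B 2 a) :=
    fun γ a => by simpa only [dS_univ] using hGQ γ a Finset.univ 0
  have hW1 : ∀ (γ : Γ) a, RLimOn (fun j => D.W (φ j) γ a 1) (G (some γ, a, Finset.univ, 0))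
    (C.B 2 a) := fun γ a => by simpa only [dS_univ] using hGW γ a Finset.univ 0
  set H := quo F fun (_ : Γ) a => G (none, a, Finset.univ, 0)
  set V := quo F fun (γ : Γ) a => G (some γ, a, Finset.univ, 0)
  have eH : ∀ {i γ a z}, z ∈ C.B 2 a → C.pt γ a z ∈ F.T i → G (none, a, Finset.univ, 0) z =
    H i (C.pt γ a z) * gr (js C (F.sh i) γ a z) 1 := fun hz hT => LQ.quo_eq hQ1 hz hT
  have eV : ∀ {i γ a z}, z ∈ C.B 2 a → C.pt γ a z ∈ F.T i → G (some γ, a, Finset.univ, 0) z =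
    V i (C.pt γ a z) * gr (js C (F.sh i) γ a z) 1 := fun hz hT => LW.quo_eq hW1 hz hT
  have hg0 := gr_pos' (B24 hz₀) hT₀
  have hg1 : ∀ᶠ z in 𝓝 z₀, gr (js C (F.sh i₀) 1 a₀ z₀) 1 / 2 < gr (js C (F.sh i₀) 1 a₀ z) 1 :=
    (gr_contAt₁ (B24 hz₀) hT₀).eventually (lt_mem_nhds (half_lt_self hg0))
  set g₀ := gr (js C (F.sh i₀) 1 a₀ z₀) 1 / 2
  have hg₀ : 0 < g₀ := half_pos hg0
  refine ⟨
    { Q := fun a I z => if Injective I then G' (none, a, Finset.univ.image I) z else 0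
      W := _, H := H, V := V, K := K, one_le := hK1, fQ := fQ, fW := fW
      V_le := fun i y hy => ?_, base := ?_, c := D.c, c_pos := D.c_pos, pole := ?_
      m := D.m, m_nonneg := D.m_nonneg, shell := ?_ }⟩
  · obtain ⟨γ, a, z, hz, rfl⟩ := C.exists_pt y
    have hz2 := B12 hz
    have h1 := rat_le (hW1 γ a z hz2) (rat_mul (w := fun _ _ => K) (hQ1 γ a z hz2) (by linarith)
      tendsto_const_nhds (LQ.abs γ one_mem hz2))
      ((ev_prod ((C.isOpen_B 2 a).mem_nhds hz2) (hφ'.eventually (D.W_le' γ a one_mem))).mono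
        fun q hq => hq.trans_eq (mul_comm _ _))
    rw [eH hz2 hy, eV hz2 hy] at h1
    exact le_of_mul_le_mul_right (h1.trans_eq (by ring)) (gr_pos' (B24 hz2) hy)
  · obtain ⟨κ, hκ, h⟩ := D.base
    have h1 : κ ≤ G (none, a₀, Finset.univ, 0) z₀ :=
      Ub.le tendsto_const_nhds ((hQ1 1 a₀ z₀ hz₀).ub tendsto_const_nhds) (hφ'.eventually h)
    rw [eH hz₀ hT₀] at h1
    exact (mul_pos_iff_of_pos_right hg0).1 (hκ.trans_le h1)
  · obtain ⟨M, N, hN, h⟩ := D.pole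
    refine ⟨max M 0 / g₀, ?_⟩
    filter_upwards [eventually_mem_nhds_iff.2 hN, tube_ev hz₀ hT₀, hg1] with z h1 h2 h3
    have h4 : G (some 1, a₀, Finset.univ, 0) z ≤ M * ‖z - z₀‖ ^ D.c := by
      refine le_of_forall_pos_le_add fun η hη => rat_le (hW1 1 a₀ z h2.1)
        (rat_cont (w := fun w => M * ‖w - z₀‖ ^ D.c + η) ?_) (ev_prod h1 (hφ'.eventually (h η hη)))
      exact (continuousAt_const.mul ((continuousAt_id.sub continuousAt_const).norm.rpow_const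
        (Or.inr D.c_pos.le))).add continuousAt_const
    rw [eV h2.1 h2.2] at h4
    have h5 : 0 ≤ ‖z - z₀‖ ^ D.c := by positivity
    rw [div_mul_eq_mul_div, le_div_iff₀ hg₀]
    rcases le_total (V i₀ (C.pt 1 a₀ z)) 0 with h6 | h6
    · exact (mul_nonpos_of_nonpos_of_nonneg h6 hg₀.le).trans (by positivity)
    · exact (mul_le_mul_of_nonneg_left h3.le h6).trans
        (h4.trans (mul_le_mul_of_nonneg_right (le_max_left _ _) h5))
  · obtain ⟨N, hN, h⟩ := D.shell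
    refine ⟨_, inter_mem hN ((tube_ev hz₀ hT₀).and hg1), fun S hS hSc hne => ?_⟩
    obtain ⟨κ, hκ, h⟩ := h S (fun z hz => (hS hz).1) hSc hne
    have hm := D.m_nonneg
    refine ⟨(κ * g₀ ^ D.m)⁻¹, fun z hz => ?_⟩
    obtain ⟨-, ⟨h1, h2⟩, h3⟩ := hS (mem_of_mem_nhds hz)
    have hQ0 := ((LQ.lpsh (γ := 1) one_mem (hQ1 1 a₀)).2 z h1).1
    have h4 : κ * G (none, a₀, Finset.univ, 0) z ^ (1 + D.m) ≤ G (some 1, a₀, Finset.univ, 0) z := by
      refine le_of_forall_pos_le_add fun η hη => ?_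
      have h5 := (hQ1 1 a₀ z h1).comp_mono (f := fun x => κ * max x 0 ^ (1 + D.m))
        (fun x y hxy => mul_le_mul_of_nonneg_left (Real.rpow_le_rpow (le_max_right _ _)
          (max_le_max_right 0 hxy) (by linarith)) hκ.le)
        (continuousAt_const.mul ((continuousAt_id.max continuousAt_const).rpow_const
          (Or.inr (by linarith))))
      have h6 := (hW1 1 a₀ z h1).comp_mono (f := fun x => x + η)
        (fun x y hxy => by simp only; linarith) (continuousAt_id.add continuousAt_const)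
      simp only [max_eq_left hQ0] at h5
      refine rat_le h5 h6 ?_
      filter_upwards [ev_prod hz (hφ'.eventually (h η hη)),
        ev_prod ((C.isOpen_B 2 a₀).mem_nhds h1) (LQ.bd 1 a₀ one_mem)] with q hq hq'
      rw [max_eq_left hq'.1]
      exact hq
    rw [eH h1 h2] at hQ0
    rw [eH h1 h2, eV h1 h2] at h4
    have h7 : 0 < gr (js C (F.sh i₀) 1 a₀ z) 1 := hg₀.trans h3
    have h8 : 0 ≤ H i₀ (C.pt 1 a₀ z) := nonneg_of_mul_nonneg_left hQ0 h7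
    rw [Real.mul_rpow h8 h7.le, Real.rpow_add h7, Real.rpow_one] at h4
    have h9 : g₀ ^ D.m ≤ gr (js C (F.sh i₀) 1 a₀ z) 1 ^ D.m := Real.rpow_le_rpow hg₀.le h3.le hm
    have h10 : 0 ≤ H i₀ (C.pt 1 a₀ z) ^ (1 + D.m) := Real.rpow_nonneg h8 _
    rw [← div_eq_inv_mul, le_div_iff₀ (by positivity)]
    refine le_of_mul_le_mul_right (le_trans ?_ h4) h7
    calc H i₀ (C.pt 1 a₀ z) ^ (1 + D.m) * (κ * g₀ ^ D.m) * gr (js C (F.sh i₀) 1 a₀ z) 1
        ≤ H i₀ (C.pt 1 a₀ z) ^ (1 + D.m) * (κ * gr (js C (F.sh i₀) 1 a₀ z) 1 ^ D.m) *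
          gr (js C (F.sh i₀) 1 a₀ z) 1 := by gcongr
      _ = _ := by ring

end Vale.Agent.P284Y.X
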