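import Vale.Agent.P284Y.X.Frm
import Vale.Agent.P284Z.Z.Main

/-!
# P284Y, row X3: relations between the frames and the weights
-/

open scoped ContDiff Topology ComplexOrder ComplexConjugate ENNReal Matrix
open Filter Set Function Metric MeasureTheory

noncomputable section

namespace Vale.Agent.P284Y.X

open Vale.Agent.P272.K Vale.Agent.P284.H608.K Vale.Agent.P284Z Vale.Agent.P284Z.J Vale.Agent.P284Z.L

variable {n p : ℕ} {Γ E : Type} [Group Γ] [TopologicalSpace E] [MulAction Γ E] {C : Cov n Γ E}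
  {F : TF C p} {i : F.ι} {γ g : Γ} {a b : C.I} {z : Cm n} {I J : Fin p → Fin n}
  {U : C.I → (Fin p → Fin n) → Set (Cm n)} {θ : C.I → (Fin p → Fin n) → Cm n → Af n p}

theorem tube_freq (F : TF C p) (γ : Γ) (hz : z ∈ C.B 2 a) : ∃ᶠ w in 𝓝 z, ∃ i, C.pt γ a w ∈ F.T i :=
  freq_of_ae ((C.isOpen_B 2 a).mem_nhds hz) (F.conull γ a)

theorem af_an {θ : Cm n → Af n p} {v : Cm n → Fin p → Cm n} (h : AnalyticAt ℂ θ z)
    (hv : ∀ j, AnalyticAt ℂ (fun w => v w j) z) : AnalyticAt ℂ (fun w => θ w (v w)) z := by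
  simp only [fun w => af_expand (θ w) (v w)]
  refine Finset.analyticAt_fun_sum _ fun σ _ => AnalyticAt.mul
    (Finset.analyticAt_fun_prod _ fun j _ => analyticAt_pi_iff.1 (hv j) _) ?_
  exact ((ContinuousAlternatingMap.apply ℂ (Cm n) ℂ (eb σ)).analyticAt _).comp h

theorem trv_an (h : C.Ov g a b z) (v : Fin p → Cm n) (j : Fin p) :
    AnalyticAt ℂ (fun w => trv C g a b w v j) z := S8b.an_fd (C.an_tr h) _

theorem trv_self (hz : z ∈ C.B 4 a) (v : Fin p → Cm n) : trv C 1 a a z v = v := by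
  have h : C.tr 1 a a =ᶠ[𝓝 z] id :=
    ((C.isOpen_B 4 a).eventually_mem hz).mono fun w hw => C.tr_self hw
  funext j
  simp [trv, h.fderiv_eq]

theorem ds_tr (h : C.Ov g a b z) (hT : C.pt (γ * g) a z ∈ F.T i) (v : Fin p → Cm n) :
    ds C (F.sh i) (γ * g) a z v = ds C (F.sh i) γ b (C.tr g a b z) (trv C g a b z v) :=
  ds_ch (F.sub i).hol h hT v

namespace Frm
variable (h : Frm F U θ)
include h

theorem ne (hz : z ∈ U a I) (hT : C.pt γ a z ∈ F.T i) : ds C (F.sh i) γ a z (eb I) ≠ 0 := by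
  obtain ⟨I', hI'⟩ := exists_eb ((F.sub i).surj γ a z (B24 (h.sub a I hz)) hT)
  intro h0
  have := h.eq i γ a I z hz hT (eb I')
  rw [h0, zero_mul] at this
  exact hI' this

theorem one (hz : z ∈ U a I) : θ a I z (eb I) = 1 := by
  refine S8b.eq_of_dense (f := fun w => θ a I w (eb I)) (g := fun _ => 1)
    (af_an (v := fun _ => eb I) (h.an a I z hz) fun _ => analyticAt_const).continuousAt
    continuousAt_const
    (tube_freq F 1 (h.sub a I hz)) ?_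
  filter_upwards [(h.opn a I).mem_nhds hz] with w hw
  rintro ⟨i, hi⟩
  exact mul_left_cancel₀ (h.ne hw hi) ((h.eq i 1 a I w hw hi _).symm.trans (mul_one _).symm)

theorem an_tr (ho : C.Ov g a b z) (hz' : C.tr g a b z ∈ U b J) (v : Fin p → Cm n) :
    AnalyticAt ℂ (fun w => θ b J (C.tr g a b w) (trv C g a b w v)) z :=
  af_an ((h.an b J _ hz').comp (C.an_tr ho)) (trv_an ho v)

theorem ds_eq (ho : C.Ov g a b z) (hz' : C.tr g a b z ∈ U b J) (hT : C.pt (γ * g) a z ∈ F.T i)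
    (v : Fin p → Cm n) : ds C (F.sh i) (γ * g) a z v =
      ds C (F.sh i) γ b (C.tr g a b z) (eb J) * θ b J (C.tr g a b z) (trv C g a b z v) := by
  rw [ds_tr ho hT]
  exact h.eq i γ b J _ hz' (by rw [C.pt_tr ho]; exact hT) _

theorem ch (ho : C.Ov g a b z) (hz : z ∈ U a I) (hz' : C.tr g a b z ∈ U b J) :
    θ b J (C.tr g a b z) (trv C g a b z (eb I)) ≠ 0 ∧ ∀ v, θ b J (C.tr g a b z) (trv C g a b z v) =
      θ b J (C.tr g a b z) (trv C g a b z (eb I)) * θ a I z v := by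
  have key : ∀ v, θ b J (C.tr g a b z) (trv C g a b z v) =
      θ b J (C.tr g a b z) (trv C g a b z (eb I)) * θ a I z v := fun v => by
    refine S8b.eq_of_dense (f := fun w => θ b J (C.tr g a b w) (trv C g a b w v))
      (g := fun w => θ b J (C.tr g a b w) (trv C g a b w (eb I)) * θ a I w v)
      (h.an_tr ho hz' v).continuousAt ((h.an_tr ho hz' _).mul
        (af_an (v := fun _ => v) (h.an a I z hz) fun _ => analyticAt_const)).continuousAt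
      (tube_freq F (1 * g) (h.sub a I hz)) ?_
    filter_upwards [(h.opn a I).mem_nhds hz, C.ev_Ov ho,
      (C.an_tr ho).continuousAt.eventually ((h.opn b J).mem_nhds hz')] with w w1 w2 w3
    rintro ⟨i, hi⟩
    refine mul_left_cancel₀ (h.ne (γ := 1) (i := i) w3 (by rw [C.pt_tr w2]; exact hi)) ?_
    rw [← h.ds_eq w2 w3 hi, ← mul_assoc, ← h.ds_eq w2 w3 hi]
    exact h.eq i _ a I w w1 hi v
  refine ⟨fun h0 => ?_, key⟩
  have h1 := key fun j => fderiv ℂ (C.tr g⁻¹ b a) (C.tr g a b z) (eb J j)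
  have h2 : (trv C g a b z fun j => fderiv ℂ (C.tr g⁻¹ b a) (C.tr g a b z) (eb J j)) = eb J :=
    funext fun j => C.fderiv_tr_inv' ho _
  rw [h2, h.one hz', h0, zero_mul] at h1
  exact one_ne_zero h1

theorem same (hz : z ∈ U a I) (hz' : z ∈ U a J) :
    θ a J z (eb I) ≠ 0 ∧ ∀ v, θ a J z v = θ a J z (eb I) * θ a I z v := by
  have h4 := B24 (h.sub a I hz)
  have := h.ch (C.Ov_self h4) hz (by rw [C.tr_self h4]; exact hz')
  simpa only [C.tr_self h4, trv_self h4] using this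

end Frm

variable {X : Γ → C.I → (Fin p → Fin n) → Cm n → ℝ} {Y : F.ι → E → ℝ} {K : ℝ}

theorem Fam.ch (f : Fam F X Y K) (h : Frm F U θ) (ho : C.Ov g a b z) (hz : z ∈ C.B 2 a)
    (hz' : C.tr g a b z ∈ U b J) : X (γ * g) a I z =
      ‖θ b J (C.tr g a b z) (trv C g a b z (eb I))‖ ^ 2 * X γ b J (C.tr g a b z) := by
  have hO : IsOpen {w | C.Ov g a b w ∧ w ∈ C.B 2 a ∧ C.tr g a b w ∈ U b J} :=
    isOpen_iff_mem_nhds.2 fun w hw => (C.ev_Ov hw.1).and (((C.isOpen_B 2 a).eventually_mem hw.2.1).and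
      ((C.an_tr hw.1).continuousAt.eventually ((h.opn b J).mem_nhds hw.2.2)))
  refine eq_of_ae_eq (Q := fun w => ‖θ b J (C.tr g a b w) (trv C g a b w (eb I))‖ ^ 2 *
    X γ b J (C.tr g a b w)) ((f.psh (γ * g) a I).mono fun w hw => hw.2.1)
    (((lpsh_norm hO fun w hw =>
      (h.an_tr hw.1 hw.2.2 _).differentiableAt.differentiableWithinAt).pow 2).mul
      ((f.psh γ b J).comp (C.isOpen_B 2 b) hO
        (fun w hw => (C.an_tr hw.1).differentiableAt.differentiableWithinAt)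
        fun w hw => h.sub b J hw.2.2)) hO ?_ z ⟨ho, hz, hz'⟩
  filter_upwards [F.conull (γ * g) a] with w w1 hw
  obtain ⟨i, hi⟩ := w1 hw.2.1
  rw [f.eq i _ a I w hw.2.1 hi, f.eq i γ b J _ (h.sub b J hw.2.2) (by rw [C.pt_tr hw.1]; exact hi),
    h.ds_eq hw.1 hw.2.2 hi, C.pt_tr hw.1, norm_mul]
  ring

theorem Fam.same (f : Fam F X Y K) (h : Frm F U θ) (hz : z ∈ U a J) :
    X γ a I z = ‖θ a J z (eb I)‖ ^ 2 * X γ a J z := by
  have h4 := B24 (h.sub a J hz)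
  have := f.ch (γ := γ) (I := I) h (C.Ov_self h4) (h.sub a J hz) (by rw [C.tr_self h4]; exact hz)
  simpa only [C.tr_self h4, trv_self h4, mul_one] using this

theorem sum_le_of {x : (Fin p → Fin n) → ℝ} (h : ∀ σ, x σ ≤ K) : ∑ σ, x σ ≤ n ^ p * K := by
  refine (Finset.sum_le_sum fun σ _ => h σ).trans_eq ?_
  simp

theorem Fam.up (f : Fam F X Y K) (h : Frm F U θ) (hz : z ∈ U a I) {v : Fin p → Cm n}
    (hv : ‖v‖ ≤ 1) : X γ a I z * ‖θ a I z v‖ ^ 2 ≤ n ^ p * (n ^ p * K) := by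
  have h1 := af_le (θ a I z) hv
  rw [one_pow, mul_one] at h1
  refine (mul_le_mul_of_nonneg_left h1 ((f.psh γ a I).1 z (h.sub a I hz))).trans ?_
  rw [mul_left_comm, Finset.mul_sum]
  refine mul_le_mul_of_nonneg_left (sum_le_of fun σ => ?_) (by positivity)
  rw [mul_comm, ← f.same h hz]
  exact f.le γ a σ z (h.sub a I hz)

theorem Fam.nonneg (f : Fam F X Y K) {y : E} (hy : y ∈ F.T i) : 0 ≤ Y i y := by
  obtain ⟨γ, a, z, hz, rfl⟩ := C.exists_pt y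
  obtain ⟨I, hI⟩ := exists_eb ((F.sub i).surj γ a z (C.B14 hz) hy)
  have h1 := (f.psh γ a I).1 z (B12 hz)
  rw [f.eq i γ a I z (B12 hz) hy] at h1
  exact nonneg_of_mul_nonneg_right h1 (pow_pos (norm_pos_iff.2 hI) 2)

theorem Fam.tube_le (f : Fam F X Y K) (hz : z ∈ C.B 2 a) (hT : C.pt γ a z ∈ F.T i)
    {v : Fin p → Cm n} {L : ℝ} (hv : ‖v‖ ≤ L) : Y i (C.pt γ a z) * ‖ds C (F.sh i) γ a z v‖ ^ 2 ≤
      n ^ p * L ^ (2 * p) * ∑ σ, X γ a σ z := by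
  have h1 := af_le (dF (fun w => F.sh i (C.pt γ a w)) z) hv
  simp only [dF_apply] at h1
  refine (mul_le_mul_of_nonneg_left h1 (f.nonneg hT)).trans_eq ?_
  rw [mul_left_comm, Finset.mul_sum]
  congr 1
  exact Finset.sum_congr rfl fun σ _ => by rw [f.eq i γ a σ z hz hT, mul_comm]; rfl

theorem tr_bd [T2Space E] (C : Cov n Γ E) : ∃ L : ℝ, 1 ≤ L ∧ ∀ g a b z, C.Ov g a b z → z ∈ C.B 2 a →
    C.tr g a b z ∈ C.B 2 b → ‖fderiv ℂ (C.tr g a b) z‖ ≤ L := by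
  have hc : ∀ a, IsCompact (C.pt 1 a '' C.cB 2 a) := fun a =>
    C.isCompact_image_pt 1 (C.isCompact_cB 2 a) (C.cB_sub_B (by norm_num) a)
  have hS := C.proper _ (isCompact_iUnion hc)
  have key : ∀ u : Γ × C.I × C.I, ∃ L : ℝ, ∀ z ∈ C.cB 2 u.2.1 ∩
      C.pt u.1 u.2.1 ⁻¹' (C.pt 1 u.2.2 '' C.cB 2 u.2.2), ‖fderiv ℂ (C.tr u.1 u.2.1 u.2.2) z‖ ≤ L := by
    rintro ⟨g, a, b⟩
    have h4 : ∀ a, C.cB 2 a ⊆ C.B 4 a := fun a => C.cB_sub_B (by norm_num) a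
    refine ((C.isCompact_cB 2 a).of_isClosed_subset
      (((C.continuousOn_pt g a).mono (h4 a)).preimage_isClosed_of_isClosed
        (C.isCompact_cB 2 a).isClosed (hc b).isClosed) inter_subset_left).exists_bound_of_continuousOn
      fun z hz => ?_
    obtain ⟨z', h1, h2⟩ := hz.2
    have h3 := (C.Ov_of_eq (h4 a hz.1) (h4 b h1) h2.symm).1
    rw [inv_one, one_mul] at h3
    exact (C.an_tr h3).fderiv.continuousAt.continuousWithinAt
  choose L hL using key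
  obtain ⟨M, hM⟩ := ((hS.prod (finite_univ (α := C.I × C.I))).image L).bddAbove
  refine ⟨max M 1, le_max_right _ _, fun g a b z ho hz hz' => ?_⟩
  have h1 : C.pt g a z ∈ C.pt 1 b '' C.cB 2 b :=
    ⟨_, C.B_sub_cB 2 b hz', by rw [C.pt_tr ho, one_mul]⟩
  refine (hL (g, a, b) z ⟨C.B_sub_cB 2 a hz, h1⟩).trans (le_trans (hM ⟨(g, a, b), ⟨?_, mem_univ _⟩, rfl⟩)
    (le_max_left _ _))
  exact ⟨C.pt 1 a z, mem_iUnion.2 ⟨a, z, C.B_sub_cB 2 a hz, rfl⟩,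
    mem_iUnion.2 ⟨b, by rw [← C.pt_eq]; exact h1⟩⟩

variable {Q : C.I → (Fin p → Fin n) → Cm n → ℝ}

theorem Fam.sum_psh (f : Fam F X Y K) (γ : Γ) (a : C.I) : LPsh (fun w => ∑ I, X γ a I w) (C.B 2 a) :=
  lpsh_sum _ fun I _ => f.psh γ a I

theorem Fam.sum_ch [T2Space E] (f : Fam F (fun _ => Q) Y K) : ∃ M : ℝ, ∀ g a b z, C.Ov g a b z →
    z ∈ C.B 2 a → C.tr g a b z ∈ C.B 2 b → ∑ I, Q a I z ≤ M * ∑ J, Q b J (C.tr g a b z) := by
  obtain ⟨L, hL1, hL⟩ := tr_bd C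
  refine ⟨n ^ p * (n ^ p * L ^ (2 * p)), fun g a b z ho hz hz' => ?_⟩
  have hO : IsOpen {w | C.Ov g a b w ∧ w ∈ C.B 2 a ∧ C.tr g a b w ∈ C.B 2 b} :=
    isOpen_iff_mem_nhds.2 fun w hw => (C.ev_Ov hw.1).and (((C.isOpen_B 2 a).eventually_mem hw.2.1).and
      ((C.an_tr hw.1).continuousAt.eventually ((C.isOpen_B 2 b).mem_nhds hw.2.2)))
  refine le_of_ae_le (Q := fun w => n ^ p * (n ^ p * L ^ (2 * p)) * ∑ J, Q b J (C.tr g a b w))
    ((f.sum_psh 1 a).mono fun w hw => hw.2.1)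
    (((f.sum_psh 1 b).comp (C.isOpen_B 2 b) hO
        (fun w hw => (C.an_tr hw.1).differentiableAt.differentiableWithinAt)
        fun w hw => hw.2.2).const_mul (by positivity)).usc hO ?_ z ⟨ho, hz, hz'⟩
  filter_upwards [F.conull (1 * g) a] with w w1 hw
  obtain ⟨i, hi⟩ := w1 hw.2.1
  rw [mul_assoc]
  refine sum_le_of fun I => ?_
  have hi' : C.pt 1 b (C.tr g a b w) ∈ F.T i := by rw [C.pt_tr hw.1]; exact hi
  have h1 := f.tube_le hw.2.2 hi' (v := trv C g a b w (eb I)) (L := L)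
    ((pi_norm_le_iff_of_nonneg (by linarith)).2 fun j =>
      ((fderiv ℂ (C.tr g a b) w).le_of_opNorm_le_of_le (hL g a b w hw.1 hw.2.1 hw.2.2)
        ((norm_le_pi_norm (eb I) j).trans (norm_eb I))).trans_eq (mul_one L))
  rw [← ds_tr hw.1 hi, C.pt_tr hw.1, mul_comm] at h1
  exact (f.eq i (1 * g) a I w hw.2.1 hi).trans_le h1

theorem Fam.sum_pos [T2Space E] [PreconnectedSpace E] (f : Fam F (fun _ => Q) Y K) {a₀ : C.I}
    {z₀ : Cm n} (hz₀ : z₀ ∈ C.B 2 a₀) (h₀ : 0 < ∑ I, Q a₀ I z₀) (a : C.I) :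
    ∀ᵐ z, z ∈ C.B 2 a → 0 < ∑ I, Q a I z := by
  obtain ⟨M, hM⟩ := f.sum_ch
  let G : C.I → Prop := fun a => ∀ᵐ z, z ∈ C.B 2 a → 0 < ∑ I, Q a I z
  have hG : ∀ a, ∀ z ∈ C.B 2 a, 0 < ∑ I, Q a I z → G a := fun a z hz h =>
    (f.sum_psh 1 a).ae_pos (C.isOpen_B 2 a) (C.preconn_B 2 a) hz h
  have ho : ∀ P : C.I → Prop, IsOpen (⋃ γ, ⋃ a, ⋃ _ : P a, C.pt γ a '' C.B 2 a) := fun P =>
    isOpen_iUnion fun γ => isOpen_iUnion fun a => isOpen_iUnion fun _ =>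
      C.isOpen_image_pt γ (C.isOpen_B 2 a) fun _ => B24
  by_contra hc
  obtain ⟨y, -, h1, h2⟩ := isPreconnected_univ _ _ (ho G) (ho fun a => ¬ G a)
    (fun y _ => by
      obtain ⟨γ, b, z, hz, rfl⟩ := C.exists_pt y
      by_cases hb : G b
      · exact Or.inl (mem_iUnion.2 ⟨γ, mem_iUnion₂.2 ⟨b, hb, z, B12 hz, rfl⟩⟩)
      · exact Or.inr (mem_iUnion.2 ⟨γ, mem_iUnion₂.2 ⟨b, hb, z, B12 hz, rfl⟩⟩))
    ⟨_, mem_univ _, mem_iUnion.2 ⟨1, mem_iUnion₂.2 ⟨a₀, hG a₀ z₀ hz₀ h₀, z₀, hz₀, rfl⟩⟩⟩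
    ⟨_, mem_univ _, mem_iUnion.2 ⟨1, mem_iUnion₂.2 ⟨a, hc, _, C.c_mem two_pos a, rfl⟩⟩⟩
  obtain ⟨γ, h1⟩ := mem_iUnion.1 h1
  obtain ⟨b, hb, z, hz, rfl⟩ := mem_iUnion₂.1 h1
  obtain ⟨γ', h2⟩ := mem_iUnion.1 h2
  obtain ⟨b', hb', z', hz', e⟩ := mem_iUnion₂.1 h2
  obtain ⟨h3, h4⟩ := C.Ov_of_eq (B24 hz) (B24 hz') e.symm
  obtain ⟨w, w1, w2, w3, w4⟩ := ((freq_of_ae ((C.isOpen_B 2 b).mem_nhds hz) hb).and_eventually
    ((C.ev_Ov h3).and (((C.isOpen_B 2 b).eventually_mem hz).and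
      ((C.an_tr h3).continuousAt.eventually ((C.isOpen_B 2 b').mem_nhds (h4.symm ▸ hz')))))).exists
  refine hb' (hG b' _ w4 (lt_of_le_of_ne ((f.sum_psh 1 b').1 _ w4) fun h0 => ?_))
  have h5 := hM _ b b' w w2 w3 w4
  rw [← h0, mul_zero] at h5
  exact absurd w1 (not_lt.2 h5)

theorem Fam.small (f : Fam F (fun _ => Q) Y K) (hK : 0 < K) : ∃ c₀ > (0 : ℝ), ∀ a, ∀ z ∈ C.B 2 a,
    SmallAt (fun w => ∑ I, Q a I w) c₀ z → ∃ I, z ∈ UU C Q a I := by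
  obtain ⟨c, hc, h⟩ := Z.li_decay (W := Cm n) volume
  refine ⟨c / 2, half_pos hc, fun a z hz hs => by_contra fun hn => ?_⟩
  obtain ⟨R, hR, hB⟩ := nhds_basis_closedBall.mem_iff.1 ((C.isOpen_B 2 a).mem_nhds hz)
  refine Z.not_small (K := n ^ p * (K * (10 / R) ^ c)) hs (half_lt_self hc) hc.le ?_
  filter_upwards [closedBall_mem_nhds z hR] with y hy
  rw [mul_assoc]
  refine sum_le_of fun I => (h _ _ z R K 1 (C.isOpen_B 2 a) (f.psh 1 a I) hB hR hK one_pos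
    (fun y hy => f.le 1 a I y (hB hy)) (fun hI => hn ⟨I, hz, hI⟩) y hy).trans_eq ?_
  rw [div_one, mul_assoc, ← Real.mul_rpow (by positivity) (norm_nonneg _)]
  congr 2
  ring

theorem Fam.thin (f : Fam F (fun _ => Q) Y K) (h : ∀ᵐ z, z ∈ C.B 2 a → 0 < ∑ I, Q a I z) :
    ∃ I, ∃ h : Cm n → ℂ, AnalyticOnNhd ℂ h (C.B (3 / 2) a) ∧ (∃ z ∈ C.B (3 / 2) a, h z ≠ 0) ∧
      ∀ z ∈ C.B (3 / 2) a, h z ≠ 0 → z ∈ UU C Q a I := by
  have h32 : C.B (3 / 2) a ⊆ C.B 2 a := C.B_mono (by norm_num) a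
  obtain ⟨z, hz, h1⟩ := exists_of_ae ((C.isOpen_B (3 / 2) a).mem_nhds (C.c_mem (by norm_num) a))
    (h.mono fun w hw hw' => hw (h32 hw'))
  obtain ⟨I, -, hI⟩ := Finset.exists_lt_of_sum_lt (s := Finset.univ) (f := fun _ => (0 : ℝ))
    (g := fun I => Q a I z) (by simpa using h1)
  have hr := half_pos (C.r_pos a)
  have e : C.B (3 / 2) a = ball (C.c a) (3 * (C.r a / 2)) := by
    unfold Cov.B; congr 1; ring
  have e4 : C.B 2 a = ball (C.c a) (4 * (C.r a / 2)) := by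
    unfold Cov.B; congr 1; ring
  obtain ⟨u, u1, u2, u3⟩ := Z.bomb (μ := volume) (U := C.B 2 a) (V := C.B (3 / 2) a) (C.c a)
    (ContinuousLinearEquiv.smulLeft (Units.mk0 ((C.r a / 2 : ℝ) : ℂ) (Complex.ofReal_ne_zero.2 hr.ne')))
    (fun x => by rw [e4]; exact Z.aff_mem _ hr 4 x)
    (fun x => by rw [e]; exact Z.aff_mem _ hr 3 x) (f.psh 1 a I) one_pos hz
    (Z.li_of_pos (C.isOpen_B 2 a) (f.psh 1 a I) (h32 hz) hI one_pos)
  exact ⟨I, u, u1, ⟨z, hz, u2⟩, fun w hw h0 => ⟨h32 hw, u3 w hw h0⟩⟩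

end Vale.Agent.P284Y.X
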