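import Vale.Agent.P284Z.L.Defs

/-!
# P284Y, rows X2 and X3: statements

`TF`: the tubes and the foliation. `XI`: the level `j` weights. `XL`: the line bundle of the conormal
forms, with its two singular weights and one tube.
-/

open scoped ContDiff Topology ComplexOrder ComplexConjugate ENNReal Matrix
open Filter Set Function Metric MeasureTheory

noncomputable section

namespace Vale.Agent.P284Y.X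

open Vale.Agent.P272.K Vale.Agent.P284.H608.K Vale.Agent.P284Z Vale.Agent.P284Z.J Vale.Agent.P284Z.L

variable {n p : ℕ} {Γ E : Type} [Group Γ] [TopologicalSpace E] [MulAction Γ E]

/-- the diagonal frame -/
def dg (d : Fin n → ℝ) : Mx n := Matrix.diagonal fun i => (d i : ℂ)

/-- `det (P ξ ξ* P*)` -/
def gr (P : Matrix (Fin p) (Fin n) ℂ) (ξ : Mx n) : ℝ := (P * ξ * (P * ξ)ᴴ).det.re

/-- the Jacobian matrix of `s` in the chart `a` of the sheet `γ` -/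
def js (C : Cov n Γ E) (s : E → Cm p) (γ : Γ) (a : C.I) (z : Cm n) : Matrix (Fin p) (Fin n) ℂ :=
  jm (fun w => s (C.pt γ a w)) z

/-- `g j w → 0` when `j → ∞` and `w → z` -/
def Sml (g : ℕ → Cm n → ℝ) (z : Cm n) : Prop :=
  Tendsto (fun q : ℕ × Cm n => g q.1 q.2) (atTop ×ˢ 𝓝 z) (𝓝 0)

/-- The tubes cover a set of full measure, and they are tangent to an invariant foliation which is
defined outside of a thin set. -/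
structure TF (C : Cov n Γ E) (p : ℕ) where
  ι : Type
  T : ι → Set E
  sh : ι → E → Cm p
  sub : ∀ i, Sub C (sh i) (T i)
  cpt : ∀ i, ∀ y ∈ T i, ∃ R > (0 : ℝ), IsCompact {y' ∈ T i | ‖sh i y' - sh i y‖ ≤ R}
  conn : ∀ i t, IsPreconnected {y ∈ T i | sh i y = t}
  conull : ∀ γ a, ∀ᵐ z, z ∈ C.B 2 a → ∃ i, C.pt γ a z ∈ T i
  fol : ∀ a, ∃ h : Cm n → ℂ, AnalyticOnNhd ℂ h (C.B 2 a) ∧ (∃ z ∈ C.B 2 a, h z ≠ 0) ∧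
    ∀ z₀ ∈ C.B 2 a, h z₀ ≠ 0 → ∃ s : Cm n → Cm p, AnalyticAt ℂ s z₀ ∧
      Surjective (fderiv ℂ s z₀) ∧ ∀ᶠ z in 𝓝 z₀, ∀ γ i, C.pt γ a z ∈ T i →
        ∀ v, fderiv ℂ s z v = 0 → fderiv ℂ (fun w => sh i (C.pt γ a w)) z v = 0

/-- The weights at level `j`: `Q j a d z = exp q_j(z, dg d)`, and
`W j γ a d z = exp w_j(pt γ a z, dg d)` for the base point `pt 1 a₀ z₀` of the tube `i₀`. -/
structure XI {C : Cov n Γ E} (F : TF C p) (i₀ : F.ι) (a₀ : C.I) (z₀ : Cm n) where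
  Q : ℕ → C.I → (Fin n → ℝ) → Cm n → ℝ
  W : ℕ → Γ → C.I → (Fin n → ℝ) → Cm n → ℝ
  e : ℕ → C.I → Cm n → ℝ
  e_sml : ∀ a, ∀ z ∈ C.B 2 a, Sml (fun j => e j a) z
  Q_psh : ∀ a d, (∀ i, d i ∈ Ioc (0 : ℝ) 1) → ∀ᶠ j in atTop,
    LPsh (fun z => Q j a d z * Real.exp (e j a z)) (C.B 2 a)
  W_psh : ∀ γ a d, (∀ i, d i ∈ Ioc (0 : ℝ) 1) → ∀ᶠ j in atTop,
    LPsh (fun z => W j γ a d z * Real.exp (e j a z)) (C.B 2 a)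
  K : ℝ
  Q_le : ∀ a d, (∀ i, d i ∈ Ioc (0 : ℝ) 1) → ∀ᶠ j in atTop, ∀ z ∈ C.B 2 a, Q j a d z ≤ K
  W_le : ∀ γ a d, (∀ i, d i ∈ Ioc (0 : ℝ) 1) → ∀ᶠ j in atTop, ∀ z ∈ C.B 2 a,
    W j γ a d z ≤ K * Q j a d z
  Q_pin : ∀ i γ a d, (∀ i, d i ∈ Ioc (0 : ℝ) 1) → ∀ z ∈ C.B 2 a, C.pt γ a z ∈ F.T i →
    Sml (fun j w => Q j a d w * gr (js C (F.sh i) γ a w) 1 -
      Q j a 1 w * gr (js C (F.sh i) γ a w) (dg d)) z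
  W_pin : ∀ i γ a d, (∀ i, d i ∈ Ioc (0 : ℝ) 1) → ∀ z ∈ C.B 2 a, C.pt γ a z ∈ F.T i →
    Sml (fun j w => W j γ a d w * gr (js C (F.sh i) γ a w) 1 -
      W j γ a 1 w * gr (js C (F.sh i) γ a w) (dg d)) z
  Q_ch : ∀ i γ g a b z, C.Ov g a b z → z ∈ C.B 2 a → C.tr g a b z ∈ C.B 2 b →
    C.pt (γ * g) a z ∈ F.T i →
    Sml (fun j w => Q j a 1 w * gr (js C (F.sh i) γ b (C.tr g a b w)) 1 -
      Q j b 1 (C.tr g a b w) * gr (js C (F.sh i) (γ * g) a w) 1) z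
  W_ch : ∀ i γ g a b z, C.Ov g a b z → z ∈ C.B 2 a → C.tr g a b z ∈ C.B 2 b →
    C.pt (γ * g) a z ∈ F.T i →
    Sml (fun j w => W j (γ * g) a 1 w * gr (js C (F.sh i) γ b (C.tr g a b w)) 1 -
      W j γ b 1 (C.tr g a b w) * gr (js C (F.sh i) (γ * g) a w) 1) z
  base : ∃ κ > (0 : ℝ), ∀ᶠ j in atTop, κ ≤ Q j a₀ 1 z₀
  c : ℝ
  c_pos : 0 < c
  pole : ∃ M : ℝ, ∃ V ∈ 𝓝 z₀, ∀ η > (0 : ℝ), ∀ᶠ j in atTop, ∀ z ∈ V,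
    W j 1 a₀ 1 z ≤ M * ‖z - z₀‖ ^ c + η
  m : ℝ
  m_nonneg : 0 ≤ m
  shell : ∃ V ∈ 𝓝 z₀, ∀ S ⊆ V, IsCompact S →
    (∀ z ∈ S, F.sh i₀ (C.pt 1 a₀ z) ≠ F.sh i₀ (C.pt 1 a₀ z₀)) →
    ∃ κ > (0 : ℝ), ∀ η > (0 : ℝ), ∀ᶠ j in atTop, ∀ z ∈ S,
      κ * Q j a₀ 1 z ^ (1 + m) ≤ W j 1 a₀ 1 z + η

/-- the frame of basis vectors -/
def eb (σ : Fin p → Fin n) : Fin p → Cm n := fun j => Pi.single (σ j) 1

/-- the image of a frame by the change of coordinates -/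
def trv (C : Cov n Γ E) (g : Γ) (a b : C.I) (z : Cm n) (v : Fin p → Cm n) : Fin p → Cm n :=
  fun i => fderiv ℂ (C.tr g a b) z (v i)

/-- The frames `θ a I` on `U a I` (all sheets) of the line bundle of the conormal forms, the weights
`Q a I = exp q_{a,I}`, `W γ a I = exp w_{γ,a,I}`, and the tube `T` through `pt 1 a₀ z₀`, in which `ds` is a
frame with the weights `Hb ∘ s` and `Wb ∘ s`. -/
structure XL (C : Cov n Γ E) (p : ℕ) where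
  U : C.I → (Fin p → Fin n) → Set (Cm n)
  U_opn : ∀ a I, IsOpen (U a I)
  U_sub : ∀ a I, U a I ⊆ C.B 2 a
  θ : C.I → (Fin p → Fin n) → Cm n → Af n p
  θ_an : ∀ a I, AnalyticOnNhd ℂ (θ a I) (U a I)
  θ_one : ∀ a I, ∀ z ∈ U a I, θ a I z (eb I) = 1
  θ_ch : ∀ g a b I J z, C.Ov g a b z → z ∈ U a I → C.tr g a b z ∈ U b J →
    θ b J (C.tr g a b z) (trv C g a b z (eb I)) ≠ 0 ∧ ∀ v, θ b J (C.tr g a b z) (trv C g a b z v) =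
      θ b J (C.tr g a b z) (trv C g a b z (eb I)) * θ a I z v
  θ_same : ∀ a I J, ∀ z ∈ U a I, z ∈ U a J → θ a J z (eb I) ≠ 0 ∧
    ∀ v, θ a J z v = θ a J z (eb I) * θ a I z v
  conn : IsPreconnected (⋃ γ, ⋃ a, ⋃ I, C.pt γ a '' U a I)
  dense : Dense (⋃ γ, ⋃ a, ⋃ I, C.pt γ a '' U a I)
  thin : ∀ a, ∃ I, ∃ h : Cm n → ℂ, AnalyticOnNhd ℂ h (C.B (3 / 2) a) ∧
    (∃ z ∈ C.B (3 / 2) a, h z ≠ 0) ∧ ∀ z ∈ C.B (3 / 2) a, h z ≠ 0 → z ∈ U a I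
  Q : C.I → (Fin p → Fin n) → Cm n → ℝ
  W : Γ → C.I → (Fin p → Fin n) → Cm n → ℝ
  Q_psh : ∀ a I, LPsh (Q a I) (C.B 2 a)
  W_psh : ∀ γ a I, LPsh (W γ a I) (C.B 2 a)
  /-- change of frame: only the target frame has to exist -/
  Q_ch : ∀ g a b I J z, C.Ov g a b z → z ∈ C.B 2 a → C.tr g a b z ∈ U b J →
    Q a I z = ‖θ b J (C.tr g a b z) (trv C g a b z (eb I))‖ ^ 2 * Q b J (C.tr g a b z)
  W_ch : ∀ γ g a b I J z, C.Ov g a b z → z ∈ C.B 2 a → C.tr g a b z ∈ U b J →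
    W (γ * g) a I z = ‖θ b J (C.tr g a b z) (trv C g a b z (eb I))‖ ^ 2 * W γ b J (C.tr g a b z)
  Q_same : ∀ a I J, ∀ z ∈ U a J, Q a I z = ‖θ a J z (eb I)‖ ^ 2 * Q a J z
  W_same : ∀ γ a I J, ∀ z ∈ U a J, W γ a I z = ‖θ a J z (eb I)‖ ^ 2 * W γ a J z
  K : ℝ
  one_le : 1 ≤ K
  Q_le : ∀ a I, ∀ z ∈ C.B 2 a, Q a I z ≤ K
  Q_up : ∀ a I, ∀ z ∈ U a I, ∀ v : Fin p → Cm n, ‖v‖ ≤ 1 → Q a I z * ‖θ a I z v‖ ^ 2 ≤ K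
  W_le : ∀ γ a I, ∀ z ∈ C.B 2 a, W γ a I z ≤ K * Q a I z
  /-- the sum of the weights is positive almost everywhere -/
  P_pos : ∀ a, ∀ᵐ z, z ∈ C.B 2 a → 0 < ∑ I, Q a I z
  P_ch : ∀ g a b z, C.Ov g a b z → z ∈ C.B 2 a → C.tr g a b z ∈ C.B 2 b →
    ∑ I, Q a I z ≤ K * ∑ J, Q b J (C.tr g a b z)
  small : ∃ c₀ > (0 : ℝ), ∀ a, ∀ z ∈ C.B 2 a, SmallAt (fun w => ∑ I, Q a I w) c₀ z →
    ∃ I, z ∈ U a I
  a₀ : C.I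
  z₀ : Cm n
  mem₀ : z₀ ∈ C.B 1 a₀
  T : Set E
  s : E → Cm p
  t₀ : Cm p
  R : ℝ
  R_pos : 0 < R
  base : C.pt 1 a₀ z₀ ∈ T ∧ s (C.pt 1 a₀ z₀) = t₀
  sub : Sub C s T
  mem : ∀ y ∈ T, s y ∈ ball t₀ R
  cpt : ∀ r < R, IsCompact {y ∈ T | ‖s y - t₀‖ ≤ r}
  /-- a holomorphic section in the chart of the base point -/
  sec : ∃ σ : Cm p → Cm n, AnalyticOnNhd ℂ σ (ball t₀ R) ∧ σ t₀ = z₀ ∧ ∀ t ∈ ball t₀ R,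
    σ t ∈ C.B 1 a₀ ∧ C.pt 1 a₀ (σ t) ∈ T ∧ s (C.pt 1 a₀ (σ t)) = t
  /-- holomorphic functions are constant on the fibres -/
  desc : ∀ f : E → ℂ, C.HolOn f T → ∀ y ∈ T, ∀ y' ∈ T, s y = s y' → f y = f y'
  Hb : Cm p → ℝ
  Wb : Cm p → ℝ
  Hb_psh : LPsh Hb (ball t₀ R)
  Wb_psh : LPsh Wb (ball t₀ R)
  conn_fib : ∀ t, IsPreconnected {y ∈ T | s y = t}
  tube_U : ∀ γ a I, ∀ z ∈ C.B 2 a, C.pt γ a z ∈ T → z ∈ U a I → ds C s γ a z (eb I) ≠ 0 ∧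
    ∀ v, ds C s γ a z v = ds C s γ a z (eb I) * θ a I z v
  /-- the translates of the tube are tangent to each other -/
  tube_tube : ∀ γ γ' a, ∀ z ∈ C.B 2 a, C.pt γ a z ∈ T → C.pt γ' a z ∈ T → ∀ v v',
    ds C s γ a z v * ds C s γ' a z v' = ds C s γ a z v' * ds C s γ' a z v
  tube_Q : ∀ γ a I, ∀ z ∈ C.B 2 a, C.pt γ a z ∈ T →
    Q a I z = ‖ds C s γ a z (eb I)‖ ^ 2 * Hb (s (C.pt γ a z)) ∧
    W γ a I z = ‖ds C s γ a z (eb I)‖ ^ 2 * Wb (s (C.pt γ a z))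
  tube_up : ∀ γ a, ∀ z ∈ C.B 2 a, C.pt γ a z ∈ T → ∀ v : Fin p → Cm n, ‖v‖ ≤ 1 →
    Hb (s (C.pt γ a z)) * ‖ds C s γ a z v‖ ^ 2 ≤ K
  Hb_le : ∀ t ∈ ball t₀ R, Hb t ≤ K ∧ Wb t ≤ K * Hb t
  Hb_pos : 0 < Hb t₀
  sk : ∀ k > (0 : ℝ), ∃ r > (0 : ℝ), ∫⁻ t in ball t₀ r, ENNReal.ofReal (Hb t) ^ (-k) < ⊤
  c : ℝ
  c_pos : 0 < c
  pole : ∀ t ∈ ball t₀ R, Wb t ≤ K * ‖t - t₀‖ ^ c
  m : ℝ
  m_nonneg : 0 ≤ m
  shell : ∀ r > (0 : ℝ), ∃ M : ℝ, ∀ t ∈ ball t₀ R, r ≤ ‖t - t₀‖ → Hb t ^ (1 + m) ≤ M * Wb t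

/-- **X2, X3** -/
def StX23 : Prop :=
  ∀ (n p : ℕ) (Γ E : Type) [Group Γ] [Countable Γ] [TopologicalSpace E] [T2Space E]
    [ConnectedSpace E] [MulAction Γ E] (C : Cov n Γ E) (F : TF C p) (i₀ : F.ι) (a₀ : C.I),
    ∀ z₀ ∈ C.B 1 a₀, 1 ≤ p → C.pt 1 a₀ z₀ ∈ F.T i₀ → XI F i₀ a₀ z₀ → Nonempty (XL C p)

/-- **X4, X5, X6** -/
def StX46 : Prop :=
  ∀ (n p : ℕ) (Γ E : Type) [Group Γ] [Countable Γ] [TopologicalSpace E] [T2Space E]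
    [ConnectedSpace E] [MulAction Γ E] (C : Cov n Γ E), 1 ≤ p → XL C p → Nonempty (BT C)

end Vale.Agent.P284Y.X
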