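import Vale.Agent.P284Y.X.Sk23
import Vale.Agent.P284Z.L.Gc
import Vale.Agent.P284Z.F0.Psh

/-!
# P284Y, rows X2 and X3: tools
-/

open scoped ContDiff Topology ComplexOrder ComplexConjugate ENNReal Matrix
open Filter Set Function Metric MeasureTheory

noncomputable section

namespace Vale.Agent.P284Y.X

open Vale.Agent.P272.K Vale.Agent.P284.H608.K Vale.Agent.P284Z Vale.Agent.P284Z.J Vale.Agent.P284Z.L

/-! ### relaxed limits -/

section rl
variable {Y : Type} [TopologicalSpace Y] {g g' : ℕ → Y → ℝ} {c c' : ℝ} {y : Y}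

theorem rat_sml (h : RAt g c y)
    (h' : Tendsto (fun q : ℕ × Y => g' q.1 q.2 - g q.1 q.2) (atTop ×ˢ 𝓝 y) (𝓝 0)) :
    RAt g' c y := by
  intro t
  refine ⟨fun ht => ?_, fun ht U hU => ?_⟩
  · filter_upwards [(h ((c + t) / 2)).1 (by linarith),
      h'.eventually (gt_mem_nhds (show (0 : ℝ) < (t - c) / 2 by linarith))] with q h1 h2
    linarith
  · obtain ⟨pa, ha, pb, hb, H⟩ := eventually_prod_iff.1
      (h'.eventually (lt_mem_nhds (show (t - c) / 2 < (0 : ℝ) by linarith)))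
    filter_upwards [(h ((c + t) / 2)).2 (by linarith) _ (inter_mem hU hb), ha] with j hj hj'
    obtain ⟨x, hx, h1⟩ := hj
    have h2 : (t - c) / 2 < g' j x - g j x := H hj' hx.2
    exact ⟨x, hx.1, by linarith⟩

theorem rat_congr (h : RAt g c y) (h' : ∀ᶠ q : ℕ × Y in atTop ×ˢ 𝓝 y, g' q.1 q.2 = g q.1 q.2) :
    RAt g' c y :=
  rat_sml h (tendsto_const_nhds.congr' (h'.mono fun _ hq => by simp only [hq, sub_self]))

theorem rat_le (h : RAt g c y) (h' : RAt g' c' y)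
    (hle : ∀ᶠ q : ℕ × Y in atTop ×ˢ 𝓝 y, g q.1 q.2 ≤ g' q.1 q.2) : c ≤ c' := by
  refine le_of_forall_gt_imp_ge_of_dense fun t ht => ?_
  obtain ⟨pa, ha, pb, hb, H⟩ := eventually_prod_iff.1 (((h' t).1 ht).and hle)
  exact h.le_of_nbhd hb (ha.mono fun j hj x hx => (H hj hx).2.trans (H hj hx).1.le)

theorem rat_cont {w : Y → ℝ} (hw : ContinuousAt w y) : RAt (fun _ => w) (w y) y := fun _ =>
  ⟨fun ht => tendsto_snd.eventually (hw.eventually (gt_mem_nhds ht)),
    fun ht _ hU => .of_forall fun _ => ⟨y, mem_of_mem_nhds hU, ht⟩⟩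

theorem rat_mul {w : ℕ → Y → ℝ} {b K : ℝ} (h : RAt g c y) (hb : 0 ≤ b)
    (hw : Tendsto (fun q : ℕ × Y => w q.1 q.2) (atTop ×ˢ 𝓝 y) (𝓝 b))
    (hK : ∀ᶠ q : ℕ × Y in atTop ×ˢ 𝓝 y, |g q.1 q.2| ≤ K) :
    RAt (fun j z => g j z * w j z) (c * b) y := by
  have h1 : RAt (fun j z => g j z * b) (c * b) y := by
    rcases hb.eq_or_lt with rfl | hb
    · simpa using rat_cont (y := y) (w := fun _ => (0 : ℝ)) continuousAt_const
    · exact h.mul_cont (w := fun _ => b) continuousAt_const hb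
  refine rat_sml h1 ?_
  have h2 : Tendsto (fun q : ℕ × Y => K * |w q.1 q.2 - b|) (atTop ×ˢ 𝓝 y) (𝓝 (K * |b - b|)) :=
    ((hw.sub_const b).abs).const_mul K
  rw [sub_self, abs_zero, mul_zero] at h2
  refine squeeze_zero_norm' (hK.mono fun q hq => ?_) h2
  rw [← mul_sub, Real.norm_eq_abs, abs_mul]
  exact mul_le_mul_of_nonneg_right hq (abs_nonneg _)

theorem ev_prod {P : ℕ → Y → Prop} {U : Set Y} (hU : U ∈ 𝓝 y) (h : ∀ᶠ j in atTop, ∀ z ∈ U, P j z) :
    ∀ᶠ q : ℕ × Y in atTop ×ˢ 𝓝 y, P q.1 q.2 := by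
  filter_upwards [tendsto_fst.eventually h, tendsto_snd.eventually hU] with q h1 h2 using h1 _ h2

theorem exists_rlimOn {ι : Type} [SecondCountableTopology Y] [Countable ι] (g : ι → ℕ → Y → ℝ)
    (U : ι → Set Y) (hU : ∀ i, IsOpen (U i)) {M : ℝ} (hM : 0 ≤ M)
    (h : ∀ i, ∀ᶠ j in atTop, ∀ z ∈ U i, 0 ≤ g i j z ∧ g i j z ≤ M) :
    ∃ φ : ℕ → ℕ, StrictMono φ ∧ ∀ i, ∃ G, RLimOn (fun j => g i (φ j)) G (U i) := by
  obtain ⟨φ, hφ, H⟩ := exists_rlim (fun i j z => max 0 (min (g i j z) M)) hM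
    (fun _ _ _ => le_max_left _ _) fun _ _ _ => max_le hM (min_le_right _ _)
  refine ⟨φ, hφ, fun i => (H i).imp fun G hG z hz => rat_congr (hG.rat z) ?_⟩
  refine (ev_prod ((hU i).mem_nhds hz) (hφ.tendsto_atTop.eventually (h i))).mono fun q hq => ?_
  rw [min_eq_left hq.2, max_eq_right hq.1]

end rl

/-! ### comparison almost everywhere -/

section ae
variable {n : ℕ} {P Q : Cm n → ℝ} {O : Set (Cm n)}

theorem le_of_ae_le (hP : LPsh P O) (hQ : UpperSemicontinuousOn Q O) (hO : IsOpen O)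
    (h : ∀ᵐ z, z ∈ O → P z ≤ Q z) : ∀ z ∈ O, P z ≤ Q z := fun _ hz =>
  le_of_forall_gt_imp_ge_of_dense fun _ ht => hP.le_of_ae volume (hO.mem_nhds hz)
    ⟨_, Z.usc_ev hO hQ hz ht, h.mono fun _ hy hy' => (hy hy'.1).trans hy'.2.le⟩

theorem eq_of_ae_eq (hP : LPsh P O) (hQ : LPsh Q O) (hO : IsOpen O)
    (h : ∀ᵐ z, z ∈ O → P z = Q z) : ∀ z ∈ O, P z = Q z := fun z hz =>
  le_antisymm (le_of_ae_le hP hQ.usc hO (h.mono fun _ hy hy' => (hy hy').le) z hz)
    (le_of_ae_le hQ hP.usc hO (h.mono fun _ hy hy' => (hy hy').ge) z hz)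

theorem freq_of_ae {S : Cm n → Prop} {z : Cm n} (hO : O ∈ 𝓝 z) (h : ∀ᵐ w, w ∈ O → S w) :
    ∃ᶠ w in 𝓝 z, S w := by
  refine frequently_iff.2 fun {V} hV => ?_
  obtain ⟨w, hw, hs⟩ := exists_of_ae (μ := volume) (inter_mem hO hV)
    (h.mono fun w hw hw' => hw hw'.1)
  exact ⟨w, hw.2, hs⟩

end ae

/-! ### forms -/

section forms
variable {n p : ℕ}

theorem norm_eb (σ : Fin p → Fin n) : ‖eb σ‖ ≤ 1 :=
  (pi_norm_le_iff_of_nonneg zero_le_one).2 fun j => by simp [eb, Pi.norm_single]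

theorem af_expand (β : Af n p) (v : Fin p → Cm n) :
    β v = ∑ σ : Fin p → Fin n, (∏ j, v j (σ j)) * β (eb σ) := by
  have h : v = fun j => ∑ l, v j l • (Pi.single l (1 : ℂ) : Cm n) := by
    ext j l
    simp [Finset.sum_apply, Pi.single_apply]
  have h1 := β.toMultilinearMap.map_sum (fun j l => v j l • (Pi.single l (1 : ℂ) : Cm n))
  rw [← h] at h1
  refine h1.trans (Finset.sum_congr rfl fun σ _ => ?_)
  rw [MultilinearMap.map_smul_univ, smul_eq_mul]
  rfl

theorem af_le (β : Af n p) {v : Fin p → Cm n} {L : ℝ} (hv : ‖v‖ ≤ L) :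
    ‖β v‖ ^ 2 ≤ (n ^ p * L ^ (2 * p) : ℝ) * ∑ σ : Fin p → Fin n, ‖β (eb σ)‖ ^ 2 := by
  have hL : 0 ≤ L := (norm_nonneg _).trans hv
  have h1 : ‖β v‖ ≤ L ^ p * ∑ σ : Fin p → Fin n, ‖β (eb σ)‖ := by
    rw [af_expand, Finset.mul_sum]
    refine (norm_sum_le _ _).trans (Finset.sum_le_sum fun σ _ => ?_)
    rw [norm_mul, norm_prod]
    refine mul_le_mul_of_nonneg_right ?_ (norm_nonneg _)
    calc ∏ j, ‖v j (σ j)‖ ≤ ∏ _j : Fin p, L := Finset.prod_le_prod (fun _ _ => norm_nonneg _)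
          fun j _ => (norm_le_pi_norm (v j) _).trans ((norm_le_pi_norm v j).trans hv)
      _ = L ^ p := by simp
  have h2 := sq_sum_le_card_mul_sum_sq (s := (Finset.univ : Finset (Fin p → Fin n)))
    (f := fun σ => ‖β (eb σ)‖)
  simp only [Finset.card_univ, Fintype.card_pi, Fintype.card_fin, Finset.prod_const,
    Nat.cast_pow] at h2
  calc ‖β v‖ ^ 2 ≤ (L ^ p * ∑ σ : Fin p → Fin n, ‖β (eb σ)‖) ^ 2 :=
        pow_le_pow_left₀ (norm_nonneg _) h1 2
    _ = L ^ (2 * p) * (∑ σ : Fin p → Fin n, ‖β (eb σ)‖) ^ 2 := by ring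
    _ ≤ L ^ (2 * p) * (n ^ p * ∑ σ : Fin p → Fin n, ‖β (eb σ)‖ ^ 2) :=
        mul_le_mul_of_nonneg_left h2 (by positivity)
    _ = _ := by ring

/-- a form is a linear function of its coefficients -/
theorem exists_af (n p : ℕ) : ∃ L : ((Fin p → Fin n) → ℂ) →L[ℂ] Af n p,
    ∀ β : Af n p, L (fun σ => β (eb σ)) = β := by
  let ev : Af n p →ₗ[ℂ] (Fin p → Fin n) → ℂ :=
    { toFun := fun β σ => β (eb σ), map_add' := fun _ _ => rfl, map_smul' := fun _ _ => rfl }
  have hi : LinearMap.ker ev = ⊥ := by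
    refine LinearMap.ker_eq_bot'.2 fun β hβ => ?_
    ext v
    rw [af_expand]
    exact Finset.sum_eq_zero fun σ _ => by rw [show β (eb σ) = 0 from congrFun hβ σ, mul_zero]
  obtain ⟨L, hL⟩ := ev.exists_leftInverse_of_injective hi
  exact ⟨LinearMap.toContinuousLinearMap L, fun β => LinearMap.congr_fun hL β⟩

theorem exists_eb {b : Cm n → Cm p} {z : Cm n} (h : Surjective (fderiv ℂ b z)) :
    ∃ I, dd b z (eb I) ≠ 0 := by
  obtain ⟨ξ, -, hξ⟩ := exists_dd_ne h
  by_contra hc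
  push Not at hc
  rw [← dF_apply, af_expand] at hξ
  exact hξ (Finset.sum_eq_zero fun σ _ => by rw [dF_apply, hc σ, mul_zero])

theorem dd_of_ker {b b' : Cm n → Cm p} {z : Cm n} (h : Surjective (fderiv ℂ b z))
    (hk : ∀ v, fderiv ℂ b z v = 0 → fderiv ℂ b' z v = 0) :
    ∃ l : ℂ, ∀ v, dd b' z v = l * dd b z v := by
  obtain ⟨ξ, hξ, -⟩ := exists_dd_one h
  refine ⟨(Matrix.of fun i k => fderiv ℂ b' z (ξ k) i).det, fun v => ?_⟩
  unfold dd
  rw [← Matrix.det_mul]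
  congr 1
  ext i j
  have h1 : fderiv ℂ b z (v j - ∑ k, fderiv ℂ b z (v j) k • ξ k) = 0 := by
    rw [map_sub, map_sum]
    simp only [map_smul, hξ]
    ext l
    simp [Finset.sum_apply, Pi.single_apply]
  have h2 := hk _ h1
  rw [map_sub, map_sum, sub_eq_zero] at h2
  simp only [Matrix.of_apply, Matrix.mul_apply, h2, map_smul, Finset.sum_apply, Pi.smul_apply,
    smul_eq_mul]
  exact Finset.sum_congr rfl fun k _ => mul_comm _ _

theorem dd_noninj (b : Cm n → Cm p) (z : Cm n) {I : Fin p → Fin n} (h : ¬ Injective I) :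
    dd b z (eb I) = 0 := by
  obtain ⟨i, j, hij, hne⟩ := Function.not_injective_iff.1 h
  rw [← dF_apply]
  exact (dF b z).toAlternatingMap.map_eq_zero_of_eq (eb I) (by simp [eb, hij]) hne

theorem gr_pos {b : Cm n → Cm p} {z : Cm n} (h : Surjective (fderiv ℂ b z)) :
    0 < gr (jm b z) 1 := by
  obtain ⟨ξ, hξ, -⟩ := exists_dd_one h
  have h1 : jm b z * (Matrix.of ξ).transpose = 1 := by
    ext i k
    have h2 : ξ k = ∑ l, ξ k l • (Pi.single l (1 : ℂ) : Cm n) := by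
      ext l
      simp [Finset.sum_apply, Pi.single_apply]
    have h3 := congrFun (hξ k) i
    rw [h2, map_sum] at h3
    simp only [map_smul, Finset.sum_apply, Pi.smul_apply, smul_eq_mul] at h3
    simp only [Matrix.mul_apply, jm, Matrix.of_apply, Matrix.transpose_apply, Matrix.one_apply]
    rw [Finset.sum_congr rfl fun l _ => mul_comm _ _, h3, Pi.single_apply]
  have h2 : Injective (jm b z).vecMul := fun x y hxy => by
    have := congrArg (fun u => Matrix.vecMul u (Matrix.of ξ).transpose) hxy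
    simpa only [Matrix.vecMul_vecMul, h1, Matrix.vecMul_one] using this
  unfold gr
  rw [Matrix.mul_one]
  exact (Complex.pos_iff.1 (Matrix.PosDef.mul_conjTranspose_self _ h2).det_pos).1

theorem gr_nonneg (P : Matrix (Fin p) (Fin n) ℂ) (ξ : Mx n) : 0 ≤ gr P ξ :=
  (Complex.nonneg_iff.1 (Matrix.posSemidef_self_mul_conjTranspose _).det_nonneg).1

theorem gr_cont : Continuous fun q : Matrix (Fin p) (Fin n) ℂ × (Fin n → ℝ) => gr q.1 (dg q.2) := by
  unfold gr dg
  refine Complex.continuous_re.comp (Continuous.matrix_det ?_)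
  have h : Continuous fun q : Matrix (Fin p) (Fin n) ℂ × (Fin n → ℝ) =>
      q.1 * Matrix.diagonal fun i => (q.2 i : ℂ) :=
    continuous_fst.matrix_mul (Continuous.matrix_diagonal (by fun_prop))
  exact h.matrix_mul h.matrix_conjTranspose

theorem dg_one : dg (1 : Fin n → ℝ) = 1 := by simp [dg]

theorem gr_ind (b : Cm n → Cm p) (z : Cm n) {I : Fin p → Fin n} (hI : Injective I) :
    gr (jm b z) (dg fun i => if i ∈ range I then 1 else 0) = ‖dd b z (eb I)‖ ^ 2 := by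
  classical
  set A : Matrix (Fin p) (Fin p) ℂ := Matrix.of fun i j => fderiv ℂ b z (eb I j) i with hA
  have h1 : jm b z * dg (fun i => if i ∈ range I then 1 else 0) *
      (jm b z * dg fun i => if i ∈ range I then 1 else 0)ᴴ = A * Aᴴ := by
    ext i k
    rw [Matrix.mul_apply, Matrix.mul_apply]
    simp only [Matrix.conjTranspose_apply, dg, Matrix.mul_diagonal]
    rw [← Finset.sum_subset (Finset.subset_univ (Finset.univ.image I)),
      Finset.sum_image fun _ _ _ _ h => hI h]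
    · refine Finset.sum_congr rfl fun j _ => ?_
      simp [hA, jm, eb]
    · intro l _ hl
      have : l ∉ range I := fun ⟨j, hj⟩ => hl (Finset.mem_image.2 ⟨j, Finset.mem_univ _, hj⟩)
      simp [this]
  unfold gr
  rw [h1, Matrix.det_mul, Matrix.det_conjTranspose, Complex.star_def, Complex.mul_conj']
  norm_cast

theorem jm_cont {b : Cm n → Cm p} {z : Cm n} (h : AnalyticAt ℂ b z) : ContinuousAt (jm b) z :=
  continuousAt_pi.2 fun i => continuousAt_pi.2 fun _ => (continuous_apply i).continuousAt.comp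
    (h.fderiv.continuousAt.clm_apply continuousAt_const)

end forms

end Vale.Agent.P284Y.X
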