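import Vale.Agent.P284Y.X.Fib

/-!
# P284Y, rows X2 and X3: the line bundle of the conormal forms
-/

open scoped ContDiff Topology ComplexOrder ComplexConjugate ENNReal Matrix
open Filter Set Function Metric MeasureTheory

noncomputable section

namespace Vale.Agent.P284Y.X

open Vale.Agent.P272.K Vale.Agent.P284.H608.K Vale.Agent.P284Z Vale.Agent.P284Z.J Vale.Agent.P284Z.L

variable {n p : ℕ} {Γ E : Type} [Group Γ] [TopologicalSpace E] [MulAction Γ E] {C : Cov n Γ E}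
  {F : TF C p} {i : F.ι} {a : C.I} {z₀ : Cm n}

theorem cpt_inter [T2Space E] {K : Set E} {s : E → Cm p} (hK : IsCompact K) (hs : ContinuousOn s K)
    {A : Set (Cm p)} (hA : IsClosed A) : IsCompact (K ∩ s ⁻¹' A) :=
  hK.of_isClosed_subset (hs.preimage_isClosed_of_isClosed hK.isClosed hA) inter_subset_left

theorem exists_tube [T2Space E] (hz₀ : z₀ ∈ C.B 1 a) (hT : C.pt 1 a z₀ ∈ F.T i) {N : Set (Cm n)}
    (hN : N ∈ 𝓝 z₀) {t₀ : Cm p} (ht : F.sh i (C.pt 1 a z₀) = t₀) :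
    ∃ R > (0 : ℝ), ∃ (σ : Cm p → Cm n) (L : ℝ), 0 ≤ L ∧ σ t₀ = z₀ ∧
      IsCompact {y ∈ F.T i | ‖F.sh i y - t₀‖ ≤ R} ∧ ∀ t ∈ ball t₀ (2 * R), AnalyticAt ℂ σ t ∧
        σ t ∈ N ∧ σ t ∈ C.B 1 a ∧ C.pt 1 a (σ t) ∈ F.T i ∧ F.sh i (C.pt 1 a (σ t)) = t ∧
        ‖σ t - z₀‖ ≤ L * ‖t - t₀‖ := by
  obtain ⟨σ, h1, h2, h3⟩ := exists_sec ((F.sub i).hol 1 a z₀ (C.B14 hz₀) hT)
    ((F.sub i).surj 1 a z₀ (C.B14 hz₀) hT)
  obtain ⟨R, hR, hK⟩ := F.cpt i _ hT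
  simp only [ht] at h1 h2 h3 hK
  have hc : Tendsto σ (𝓝 t₀) (𝓝 z₀) := h2 ▸ h1.continuousAt.tendsto
  obtain ⟨L, hL, h4⟩ := h1.differentiableAt.isBigO_sub.exists_nonneg
  obtain ⟨ε, hε, h5⟩ := Metric.eventually_nhds_iff_ball.1 (h1.eventually_analyticAt.and
    ((hc.eventually hN).and ((hc.eventually ((C.isOpen_B 1 a).mem_nhds hz₀)).and
      ((hc.eventually (tube_ev (B12 hz₀) hT)).and (h3.and h4.bound)))))
  refine ⟨min R (ε / 2), by positivity, σ, L, hL, h2, ?_, fun t h => ?_⟩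
  · convert cpt_inter hK (fun y hy => ((F.sub i).hol.continuousAt C hy.1).continuousWithinAt)
      (isClosed_closedBall (x := t₀) (ε := min R (ε / 2))) using 1
    exact Set.ext fun y => ⟨fun h => ⟨⟨h.1, h.2.trans (min_le_left _ _)⟩, mem_closedBall_iff_norm.2 h.2⟩,
      fun h => ⟨h.1.1, mem_closedBall_iff_norm.1 h.2⟩⟩
  · obtain ⟨g1, g2, g3, g4, g5, g6⟩ := h5 t (ball_subset_ball (by linarith [min_le_right R (ε / 2)]) h)
    exact ⟨g1, g2, g3, g4.2, g5, h2 ▸ g6⟩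

theorem Fam.sec {X : Γ → C.I → (Fin p → Fin n) → Cm n → ℝ} {Y : F.ι → E → ℝ} {K : ℝ}
    (f : Fam F X Y K) {σ : Cm p → Cm n} {O : Set (Cm p)} (hO : IsOpen O)
    (h : ∀ t ∈ O, AnalyticAt ℂ σ t ∧ σ t ∈ C.B 1 a ∧ C.pt 1 a (σ t) ∈ F.T i) :
    LPsh (fun t => Y i (C.pt 1 a (σ t))) O := by
  refine lpsh_of_loc fun t ht => ?_
  obtain ⟨N, h1, h2, h3⟩ := f.lpsh (B12 (h t ht).2.1) (h t ht).2.2
  obtain ⟨N', g1, g2, g3⟩ := _root_.eventually_nhds_iff.1 ((hO.eventually_mem ht).and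
    ((h t ht).1.continuousAt.eventually h1))
  exact ⟨N', g2.mem_nhds g3, h3.comp h2 g2
    (fun w hw => (h w (g1 w hw).1).1.differentiableAt.differentiableWithinAt) fun w hw => (g1 w hw).2⟩

theorem stX23 : StX23 := by
  intro n p Γ E _ _ _ _ _ _ C F i a z₀ hz₀ _ hT D
  obtain ⟨M⟩ := exists_xm D (B12 hz₀) hT
  obtain ⟨θ, hθ⟩ := exists_frm M.fQ
  have hK : 0 < M.K := one_pos.trans_le M.one_le
  obtain ⟨I₀, hI₀⟩ := exists_eb ((F.sub i).surj 1 a z₀ (C.B14 hz₀) hT)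
  have hpos := M.fQ.sum_pos (B12 hz₀) (Finset.sum_pos' (fun I _ => (M.fQ.psh 1 a I).1 _ (B12 hz₀))
    ⟨I₀, Finset.mem_univ _, (mul_pos (pow_pos (norm_pos_iff.2 hI₀) 2) M.base).trans_eq
      (M.fQ.eq i 1 a I₀ z₀ (B12 hz₀) hT).symm⟩)
  have hthin := fun b => M.fQ.thin (hpos b)
  obtain ⟨hc1, hc2⟩ := C.preconn_of_thin (k := 3 / 2) (Ω₀ := univ)
    (Ω := ⋃ γ, ⋃ a, ⋃ I, C.pt γ a '' UU C M.Q a I) (by norm_num) (by norm_num) isOpen_univ
    isPreconnected_univ (subset_univ _) fun γ b => by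
      obtain ⟨I, h, h1, h2, h3⟩ := hthin b
      exact ⟨h, h1, h2, fun z hz h0 _ => mem_iUnion.2 ⟨γ, mem_iUnion₂.2 ⟨b, I, z, h3 z hz h0, rfl⟩⟩⟩
  obtain ⟨M₁, hM₁⟩ := M.fQ.sum_ch
  obtain ⟨M₂, hM₂⟩ := M.pole
  obtain ⟨N, hN, hsh⟩ := M.shell
  obtain ⟨ρ, hρ, hρ'⟩ := nhds_basis_closedBall.mem_iff.1 (inter_mem hN (tube_ev (B12 hz₀) hT))
  obtain ⟨t₀, ht₀⟩ : ∃ t₀, F.sh i (C.pt 1 a z₀) = t₀ := ⟨_, rfl⟩
  obtain ⟨R, hR, σ, L, hL, σ0, hcp, hσ⟩ := exists_tube hz₀ hT (inter_mem hM₂ (ball_mem_nhds z₀ hρ)) ht₀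
  have h2 : ball t₀ R ⊆ ball t₀ (2 * R) := ball_subset_ball (by linarith)
  have hH := M.fQ.sec isOpen_ball fun t ht => ⟨(hσ t ht).1, (hσ t ht).2.2.1, (hσ t ht).2.2.2.1⟩
  have hV := M.fW.sec isOpen_ball fun t ht => ⟨(hσ t ht).1, (hσ t ht).2.2.1, (hσ t ht).2.2.2.1⟩
  obtain ⟨M₃, -, hM₃⟩ := usc_bdd hH.usc (isCompact_closedBall t₀ R)
    (closedBall_subset_ball (by linarith))
  obtain ⟨K, k1, k2, k3, k4, k5⟩ : ∃ K : ℝ, M.K ≤ K ∧ n ^ p * (n ^ p * M.K) ≤ K ∧ M₁ ≤ K ∧ M₃ ≤ K ∧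
      |M₂| * L ^ M.c ≤ K := ⟨max M.K (max (n ^ p * (n ^ p * M.K)) (max M₁ (max M₃ _))),
    le_max_left _ _, by simp, by simp, by simp,
    le_max_of_le_right (le_max_of_le_right (le_max_of_le_right (le_max_right _ _)))⟩
  have hcont : ∀ y ∈ F.T i, ContinuousAt (F.sh i) y := fun y hy => (F.sub i).hol.continuousAt C hy
  let T : Set E := {y ∈ F.T i | F.sh i y ∈ ball t₀ R}
  have hsub : Sub C (F.sh i) T := ⟨isOpen_iff_mem_nhds.2 fun y hy =>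
    ((F.sub i).opn.eventually_mem hy.1).and ((hcont y hy.1).eventually (isOpen_ball.mem_nhds hy.2)),
    fun γ b z hz h => (F.sub i).hol γ b z hz h.1, fun γ b z hz h => (F.sub i).surj γ b z hz h.1⟩
  have hA : ∀ A ⊆ ball t₀ R, IsClosed A → IsCompact {y ∈ T | F.sh i y ∈ A} := fun A h1 h3 => by
    convert cpt_inter hcp (fun y hy => (hcont y hy.1).continuousWithinAt) h3 using 1
    exact Set.ext fun y => ⟨fun h => ⟨⟨h.1.1, (mem_ball_iff_norm.1 h.1.2).le⟩, h.2⟩,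
      fun h => ⟨⟨h.1.1, h1 h.2⟩, h.2⟩⟩
  have hf1 : ∀ y ∈ T, IsCompact {y' ∈ T | F.sh i y' = F.sh i y} := fun y hy =>
    hA {F.sh i y} (singleton_subset_iff.2 hy.2) isClosed_singleton
  have hf2 : ∀ t, IsPreconnected {y ∈ T | F.sh i y = t} := fun t => by
    by_cases h : t ∈ ball t₀ R
    · convert F.conn i t using 1
      exact Set.ext fun y => ⟨fun g => ⟨g.1.1, g.2⟩, fun g => ⟨⟨g.1, g.2.symm ▸ h⟩, g.2⟩⟩
    · convert isPreconnected_empty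
      exact eq_empty_of_forall_notMem fun y g => h (g.2 ▸ g.1.2)
  have hσT : ∀ t ∈ ball t₀ R, C.pt 1 a (σ t) ∈ T := fun t ht =>
    ⟨(hσ t (h2 ht)).2.2.2.1, (hσ t (h2 ht)).2.2.2.2.1.symm ▸ ht⟩
  have hfib : ∀ {X Y K'}, Fam F X Y K' → ∀ y ∈ T, Y i y = Y i (C.pt 1 a (σ (F.sh i y))) :=
    fun f y hy => f.fib (fun _ h => h.1) hsub (hf1 y hy) (hf2 _) y ⟨hy, rfl⟩ _
      ⟨hσT _ hy.2, (hσ _ (h2 hy.2)).2.2.2.2.1⟩
  have hH0 : 0 < M.H i (C.pt 1 a (σ t₀)) := σ0.symm ▸ M.base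
  refine ⟨{
    U := UU C M.Q, U_opn := UU_opn, U_sub := hθ.sub, θ := θ, θ_an := hθ.an
    θ_one := fun _ _ _ => hθ.one
    θ_ch := fun _ _ _ _ _ _ => hθ.ch
    θ_same := fun _ _ _ _ => hθ.same
    conn := hc1, dense := fun y => hc2 (mem_univ y), thin := hthin, Q := M.Q, W := M.W
    Q_psh := M.fQ.psh 1, W_psh := M.fW.psh
    Q_ch := fun _ _ _ _ _ _ => M.fQ.ch (γ := 1) hθ
    W_ch := fun _ _ _ _ _ _ _ => M.fW.ch hθ
    Q_same := fun _ _ _ _ => M.fQ.same (γ := 1) hθ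
    W_same := fun _ _ _ _ _ => M.fW.same hθ
    K := K, one_le := M.one_le.trans k1
    Q_le := fun b I z hz => (M.fQ.le 1 b I z hz).trans k1
    Q_up := fun b I z hz v hv => (M.fQ.up (γ := 1) hθ hz hv).trans k2
    W_le := fun γ b I => le_of_ae_le (M.fW.psh γ b I)
      ((M.fQ.psh 1 b I).const_mul (hK.le.trans k1)).usc (C.isOpen_B 2 b) ?_
    P_pos := hpos
    P_ch := fun g b b' z ho hz hz' => (hM₁ g b b' z ho hz hz').trans
      (mul_le_mul_of_nonneg_right k3 ((M.fQ.sum_psh 1 b').1 _ hz'))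
    small := M.fQ.small hK
    a₀ := a, z₀ := z₀, mem₀ := hz₀, T := T, s := F.sh i, t₀ := t₀, R := R, R_pos := hR
    base := ⟨⟨hT, ht₀.symm ▸ mem_ball_self hR⟩, ht₀⟩
    sub := hsub, mem := fun y hy => hy.2
    cpt := fun r hr => by
      simpa only [mem_closedBall_iff_norm] using hA _ (closedBall_subset_ball hr) isClosed_closedBall
    sec := ⟨σ, fun t ht => (hσ t (h2 ht)).1, σ0, fun t ht =>
      ⟨(hσ t (h2 ht)).2.2.1, hσT t ht, (hσ t (h2 ht)).2.2.2.2.1⟩⟩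
    desc := fun f hf y hy y' hy' e => hol_const hsub hf (hf1 y hy) (hf2 _) y ⟨hy, rfl⟩ y' ⟨hy', e.symm⟩
    Hb := fun t => M.H i (C.pt 1 a (σ t)), Wb := fun t => M.V i (C.pt 1 a (σ t))
    Hb_psh := hH.mono h2, Wb_psh := hV.mono h2, conn_fib := hf2
    tube_U := fun γ b I z _ h hz => ⟨hθ.ne hz h.1, hθ.eq i γ b I z hz h.1⟩
    tube_tube := fun γ γ' b z hz h h' => ds_prop hz h.1 h'.1
    tube_Q := fun γ b I z hz h => ⟨hfib M.fQ _ h ▸ M.fQ.eq i γ b I z hz h.1,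
      hfib M.fW _ h ▸ M.fW.eq i γ b I z hz h.1⟩
    tube_up := fun γ b z hz h v hv => ?_
    Hb_le := fun t ht => ⟨(hM₃ t (ball_subset_closedBall ht)).trans k4,
      (M.V_le i _ (hσT t ht).1).trans (mul_le_mul_of_nonneg_right k1 (hH.1 t (h2 ht)))⟩
    Hb_pos := hH0
    sk := fun k hk => ?_
    c := M.c, c_pos := M.c_pos
    pole := fun t ht => ?_
    m := M.m, m_nonneg := M.m_nonneg
    shell := fun r hr => ?_ }⟩
  · filter_upwards [F.conull γ b] with z h1 hz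
    obtain ⟨j, hj⟩ := h1 hz
    rw [M.fW.eq j γ b I z hz hj, M.fQ.eq j γ b I z hz hj, mul_left_comm]
    exact mul_le_mul_of_nonneg_left ((M.V_le j _ hj).trans
      (mul_le_mul_of_nonneg_right k1 (M.fQ.nonneg hj))) (by positivity)
  · have h1 := M.fQ.tube_le hz h.1 hv
    rw [hfib M.fQ _ h, one_pow, mul_one] at h1
    exact h1.trans ((mul_le_mul_of_nonneg_left (sum_le_of fun J => M.fQ.le γ b J z hz)
      (by positivity)).trans k2)
  · obtain ⟨U, hU, h1⟩ := Z.li_of_pos (μ := volume) isOpen_ball hH (mem_ball_self (by linarith)) hH0 hk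
    obtain ⟨r, hr, h3⟩ := Metric.mem_nhds_iff.1 hU
    exact ⟨r, hr, (lintegral_mono_set h3).trans_lt h1⟩
  · obtain ⟨-, h1, -, -, -, h3⟩ := hσ t (h2 ht)
    refine h1.1.trans ((mul_le_mul (le_abs_self _) (Real.rpow_le_rpow (norm_nonneg _) h3 M.c_pos.le)
      (by positivity) (abs_nonneg _)).trans ?_)
    rw [Real.mul_rpow hL (norm_nonneg _), ← mul_assoc]
    exact mul_le_mul_of_nonneg_right k5 (by positivity)
  · have hb : ∀ z ∈ closedBall z₀ ρ, ContinuousAt (fun w => ‖F.sh i (C.pt 1 a w) - t₀‖) z :=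
      fun z hz => (((F.sub i).hol 1 a z (B24 (hρ' hz).2.1) (hρ' hz).2.2).continuousAt.sub
        continuousAt_const).norm
    obtain ⟨M', hM'⟩ := hsh (closedBall z₀ ρ ∩ (fun w => ‖F.sh i (C.pt 1 a w) - t₀‖) ⁻¹' Ici (r / 2))
      (fun z hz => (hρ' hz.1).1) ((isCompact_closedBall z₀ ρ).of_isClosed_subset
        (ContinuousOn.preimage_isClosed_of_isClosed (fun z hz => (hb z hz).continuousWithinAt)
          isClosed_closedBall isClosed_Ici) inter_subset_left) fun z hz e => by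
        have h1 : r / 2 ≤ ‖F.sh i (C.pt 1 a z) - t₀‖ := hz.2
        rw [e, ht₀, sub_self, norm_zero] at h1
        linarith
    refine ⟨M', fun t ht h1 => hM' _ ?_⟩
    obtain ⟨-, h3, -, -, h4, -⟩ := hσ t (h2 ht)
    exact inter_mem (mem_of_superset (isOpen_ball.mem_nhds h3.2) ball_subset_closedBall)
      ((hb _ (ball_subset_closedBall h3.2)).eventually (Ici_mem_nhds (by simp only [h4]; linarith)))

end Vale.Agent.P284Y.X
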